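import Vale.Agent.P141.H845.Near

/-!
# P141, line W: one layer of the moving black box
-/

namespace Vale.Agent.P141.H845

open Finset Vale.Agent.P141.PL.H855
open Vale.Agent.P141.PL.H571 (W mem_W)

/-- cover of the nodes by the orders of the four tops -/
theorem order_cover (T : Fin 4 → ℕ × ℤ → ℕ × ℤ) (𝒩 : Finset (ℕ × ℤ)) (x : ℕ × ℤ → ℝ)
    (hx : ∀ N, 0 ≤ x N) {B : ℝ}
    (hB : ∀ σ : Equiv.Perm (Fin 4), ∀ 𝒮 ⊆ 𝒩,
      (∀ N ∈ 𝒮, (T (σ 0) N).1 ≤ (T (σ 2) N).1 ∧ (T (σ 0) N).1 ≤ (T (σ 3) N).1 ∧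
      (T (σ 1) N).1 ≤ (T (σ 2) N).1 ∧ (T (σ 1) N).1 ≤ (T (σ 3) N).1) → ∑ N ∈ 𝒮, x N ≤ B) :
    ∑ N ∈ 𝒩, x N ≤ 24 * B := by
  classical
  set S : Equiv.Perm (Fin 4) → Finset (ℕ × ℤ) := fun σ => 𝒩.filter fun N =>
    (T (σ 0) N).1 ≤ (T (σ 2) N).1 ∧ (T (σ 0) N).1 ≤ (T (σ 3) N).1 ∧
      (T (σ 1) N).1 ≤ (T (σ 2) N).1 ∧ (T (σ 1) N).1 ≤ (T (σ 3) N).1 with hS
  have hcov : ∀ N ∈ 𝒩, ∃ σ, N ∈ S σ := by
    intro N hN
    refine ⟨Tuple.sort fun j => (T j N).1, ?_⟩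
    have h := Tuple.monotone_sort fun j => (T j N).1
    simp only [hS]
    rw [mem_filter]
    exact ⟨hN, h (by decide : (0 : Fin 4) ≤ 2), h (by decide : (0 : Fin 4) ≤ 3),
      h (by decide : (1 : Fin 4) ≤ 2), h (by decide : (1 : Fin 4) ≤ 3)⟩
  have h1 : ∑ N ∈ 𝒩, x N ≤ ∑ σ : Equiv.Perm (Fin 4), ∑ N ∈ S σ, x N := by
    have h2 : ∀ N ∈ 𝒩, x N ≤ ∑ σ : Equiv.Perm (Fin 4), if N ∈ S σ then x N else 0 := by
      intro N hN
      obtain ⟨σ, hσ⟩ := hcov N hN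
      refine le_trans (le_of_eq ?_) (single_le_sum (f := fun σ : Equiv.Perm (Fin 4) =>
        if N ∈ S σ then x N else 0) (fun σ _ => by split_ifs; exacts [hx N, le_rfl])
        (mem_univ σ))
      rw [if_pos hσ]
    refine (sum_le_sum h2).trans (le_of_eq ?_)
    rw [sum_comm]
    refine sum_congr rfl fun σ _ => ?_
    rw [← sum_filter]
    refine sum_congr ?_ fun _ _ => rfl
    ext N
    simp only [mem_filter, hS]
    constructor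
    · rintro ⟨_, h⟩; exact h
    · intro h; exact ⟨h.1, h⟩
  refine h1.trans ?_
  refine (sum_le_sum fun σ _ => hB σ (S σ) (filter_subset _ _) fun N hN =>
    (mem_filter.1 hN).2).trans (le_of_eq ?_)
  rw [sum_const, card_univ, Fintype.card_perm, Fintype.card_fin, nsmul_eq_mul]
  simp only [Nat.factorial]
  push_cast
  ring

/-- the local `L ^ q` size of a function of height `L` and local energy `≤ 1` -/
theorem lq_of_l2 {q L : ℝ} (hq : 2 < q) {s : Finset ℤ} {g : ℤ → ℝ} {B : ℝ}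
    (hg : ∀ x, |g x| ≤ L) (hs : ∑ y ∈ s, |g y| ^ 2 ≤ B) :
    ∑ y ∈ s, |g y| ^ q ≤ L ^ (q - 2) * B := by
  have hq0 : 0 < q := by linarith
  have hL0 : 0 ≤ L := (abs_nonneg _).trans (hg 0)
  refine le_trans ?_ (mul_le_mul_of_nonneg_left hs (Real.rpow_nonneg hL0 _))
  rw [mul_sum]
  refine sum_le_sum fun y _ => ?_
  rcases (abs_nonneg (g y)).eq_or_lt with h0 | h0
  · rw [← h0, Real.zero_rpow hq0.ne']
    have := Real.rpow_nonneg hL0 (q - 2)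
    positivity
  · have e : |g y| ^ q = |g y| ^ (q - 2) * |g y| ^ 2 := by
      rw [← Real.rpow_natCast, ← Real.rpow_add h0]
      congr 1
      push_cast
      ring
    rw [e]
    exact mul_le_mul_of_nonneg_right
      (Real.rpow_le_rpow h0.le (hg _) (by linarith)) (by positivity)

/-- the geometric mean as a weighted sum -/
theorem sigma_facts {a b M R : ℝ} (ha : 1 ≤ a) (hb : 1 ≤ b) (haM : a ≤ M) (hbM : b ≤ M)
    (hR0 : 0 ≤ R) (hR : a * b ≤ R ^ 2) : ∃ σ : ℝ, 0 < σ ∧ σ + σ⁻¹ ≤ 2 * M ∧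
      (σ * a + σ⁻¹ * b) / 2 ≤ R := by
  have ha0 : 0 < a := by linarith
  have hb0 : 0 < b := by linarith
  have hM0 : 0 < M := by linarith
  have hMM : M ≤ M ^ 2 := by nlinarith
  have hσi : (Real.sqrt (b / a))⁻¹ = Real.sqrt (a / b) := by
    rw [← Real.sqrt_inv, inv_div]
  refine ⟨Real.sqrt (b / a), Real.sqrt_pos.2 (by positivity), ?_, ?_⟩
  · rw [hσi]
    have h1 : Real.sqrt (b / a) ≤ M := by
      refine Real.sqrt_le_iff.2 ⟨hM0.le, ?_⟩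
      rw [div_le_iff₀ ha0]
      nlinarith
    have h2 : Real.sqrt (a / b) ≤ M := by
      refine Real.sqrt_le_iff.2 ⟨hM0.le, ?_⟩
      rw [div_le_iff₀ hb0]
      nlinarith
    linarith
  · rw [hσi]
    have h1 : Real.sqrt (b / a) * a = Real.sqrt (a * b) := by
      rw [show a * b = b / a * a ^ 2 by field_simp, Real.sqrt_mul (by positivity),
        Real.sqrt_sq ha0.le]
    have h2 : Real.sqrt (a / b) * b = Real.sqrt (a * b) := by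
      rw [show a * b = a / b * b ^ 2 by field_simp, Real.sqrt_mul (by positivity),
        Real.sqrt_sq hb0.le]
    have h3 : Real.sqrt (a * b) ≤ R := Real.sqrt_le_iff.2 ⟨hR0, hR⟩
    rw [h1, h2]
    linarith

/-- the final numbers -/
theorem mbb_num {q L M R S σ α : ℝ} (hq : 2 < q) (hL : 1 ≤ L) (hM : 1 ≤ M) (hR : 1 ≤ R)
    (hσ0 : 0 < σ) (hσ : σ + σ⁻¹ ≤ 2 * M) (hS : S ≤ R) (hα : α * α ≤ L ^ (q - 2)) :
    (α * α) * (2 + M ^ (q - 2) * (M * M⁻¹ ^ (2 * (q - 1)) * (σ + σ⁻¹) +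
      L ^ (2 * (q - 2)) * S)) ≤ 5 * R * (L * M) ^ (3 * (q - 2)) := by
  have hM0 : 0 < M := by linarith
  have hL0 : 0 < L := by linarith
  have hσi : 0 < σ⁻¹ := inv_pos.2 hσ0
  have hMφ : M * M⁻¹ ^ (2 * (q - 1)) * (σ + σ⁻¹) ≤ 2 := by
    have h5 : M⁻¹ ^ (2 * (q - 1)) ≤ M⁻¹ ^ (2 : ℝ) :=
      Real.rpow_le_rpow_of_exponent_ge (inv_pos.2 hM0) (inv_le_one_of_one_le₀ hM) (by linarith)
    rw [Real.rpow_two] at h5
    have h6 : 0 ≤ M⁻¹ ^ (2 * (q - 1)) := Real.rpow_nonneg (inv_pos.2 hM0).le _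
    calc M * M⁻¹ ^ (2 * (q - 1)) * (σ + σ⁻¹) ≤ M * M⁻¹ ^ 2 * (2 * M) := by
          refine mul_le_mul (mul_le_mul_of_nonneg_left h5 hM0.le) hσ (by positivity)
            (by positivity)
      _ = 2 := by field_simp
  have hLq : 1 ≤ L ^ (2 * (q - 2)) := Real.one_le_rpow hL (by linarith)
  have hMq : 1 ≤ M ^ (q - 2) := Real.one_le_rpow hM (by linarith)
  set X := L ^ (2 * (q - 2)) with hX
  set Y := M ^ (q - 2) with hY
  have hX0 : 0 ≤ X := by linarith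
  have hY0 : 0 ≤ Y := by linarith
  have h5 : X * S ≤ X * R := mul_le_mul_of_nonneg_left hS hX0
  have h6 : 1 ≤ X * R := one_le_mul_of_one_le_of_one_le hLq hR
  have h8 : Y * (M * M⁻¹ ^ (2 * (q - 1)) * (σ + σ⁻¹) + X * S) ≤ Y * (3 * (X * R)) :=
    mul_le_mul_of_nonneg_left (by linarith) hY0
  have h9 : 1 ≤ Y * (X * R) := one_le_mul_of_one_le_of_one_le hMq h6
  have hb : 2 + Y * (M * M⁻¹ ^ (2 * (q - 1)) * (σ + σ⁻¹) + X * S) ≤ 5 * (Y * (X * R)) := by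
    have : Y * (3 * (X * R)) = 3 * (Y * (X * R)) := by ring
    linarith
  have hb0 : 0 ≤ 2 + Y * (M * M⁻¹ ^ (2 * (q - 1)) * (σ + σ⁻¹) + X * S) ∨
      2 + Y * (M * M⁻¹ ^ (2 * (q - 1)) * (σ + σ⁻¹) + X * S) ≤ 0 := le_total _ _
  have hαα : 0 ≤ α * α := mul_self_nonneg α
  have h10 : L ^ (q - 2) * (Y * X) ≤ (L * M) ^ (3 * (q - 2)) := by
    have h6 : L ^ (q - 2) * M ^ (q - 2) = (L * M) ^ (q - 2) := by
      rw [Real.mul_rpow hL0.le hM0.le]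
    have h7 : L ^ (2 * (q - 2)) ≤ (L * M) ^ (2 * (q - 2)) :=
      Real.rpow_le_rpow hL0.le (by nlinarith) (by linarith)
    calc L ^ (q - 2) * (Y * X) = (L * M) ^ (q - 2) * L ^ (2 * (q - 2)) := by
          rw [← h6, hX, hY]; ring
      _ ≤ (L * M) ^ (q - 2) * (L * M) ^ (2 * (q - 2)) :=
          mul_le_mul_of_nonneg_left h7 (by positivity)
      _ = (L * M) ^ (3 * (q - 2)) := by
          rw [← Real.rpow_add (by positivity)]; congr 1; ring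
  calc (α * α) * (2 + Y * (M * M⁻¹ ^ (2 * (q - 1)) * (σ + σ⁻¹) + X * S))
      ≤ (α * α) * (5 * (Y * (X * R))) := mul_le_mul_of_nonneg_left hb hαα
    _ ≤ L ^ (q - 2) * (5 * (Y * (X * R))) := mul_le_mul_of_nonneg_right hα (by positivity)
    _ = 5 * R * (L ^ (q - 2) * (Y * X)) := by ring
    _ ≤ _ := mul_le_mul_of_nonneg_left h10 (by positivity)

/-- **normalised slots, heights of the signed sums given** -/
theorem mbb_one {q : ℝ} (hq : 2 < q) : ∃ C : ℝ, 0 < C ∧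
    ∀ (n : ℕ) (γ P : ℝ), 0 ≤ γ → 0 ≤ P → (∀ H' : ℝ, 1 ≤ H' → RootQ q n H' (P * H' ^ γ)) →
    ∀ (G : Fin 4 → ℕ × ℤ → ℤ → ℝ) (T : Fin 4 → ℕ × ℤ → ℕ × ℤ)
    (o : ℤ) (K : ℕ) (V : ℤ) (𝒩 : Finset (ℕ × ℤ)), (∀ j, Win 𝒩 (T j)) →
    (∀ j i, (Function.support (G j i)).Finite) → (o = 1 ∨ o = -1) → K ≤ n →
    (∀ N ∈ 𝒩, 1 ≤ N.1 ∧ N.1 ≤ K ∧ N.2 / 2 ^ (K - N.1) = V) →
    (∀ N ∈ 𝒩, ∀ k', N.1 ≤ k' → k' ≤ K → (k', N.2 / 2 ^ (k' - N.1)) ∈ 𝒩) →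
    ∀ (L M : ℝ) (κ : Fin 4 → ℝ), 1 ≤ L → 1 ≤ M → (∀ j, 1 ≤ κ j) → (∀ j, κ j ≤ M) →
    (∀ j i x, |G j i x| ≤ L) →
    (∀ j, ∀ N ∈ 𝒩, ∑ y ∈ W N.1 N.2, |G j (T j N) y| ^ 2 ≤ 2 ^ (N.1 + 5)) →
    (∀ j y, ∑ i ∈ tops 𝒩 (T j), |cut i (G j i) y| ≤ L) →
    (∀ j, ∑ i ∈ tops 𝒩 (T j), (2 : ℝ) ^ i.1 ≤ κ j * 2 ^ K) →
    ∀ R : ℝ, (∀ a b, a ≠ b → κ a * κ b ≤ R ^ 2) → 0 ≤ R →
    ∑ N ∈ 𝒩, |wN o (fun j => G j (T j N)) N| ≤
      C * P * 2 ^ K * R * (L * M) ^ (γ + 3 * (q - 2)) := by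
  classical
  have hq0 : 0 < q := by linarith
  obtain ⟨C, hC, hord⟩ := mbb_order hq0 (p := 2 * (q - 1)) (by linarith) (by linarith)
  refine ⟨24 * (5 * C), by positivity, ?_⟩
  intro n γ P hγ hP hroot G T o K V 𝒩 hT hGs ho hK hbel hcl L M κ hL hM hκ hκM hGL hloc hheight hms
    R hR hR0
  have hM0 : 0 < M := by linarith
  have hL0 : 0 < L := by linarith
  have hLH : L ≤ L * M := le_mul_of_one_le_right hL0.le hM
  have hH1 : 1 ≤ L * M := hL.trans hLH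
  have hH0 : 0 < L * M := by linarith
  -- the size
  set α : ℝ := (L ^ (q - 2)) ^ (1 / q) with hα
  have hα1 : 1 ≤ α := by
    rw [hα]
    exact Real.one_le_rpow (Real.one_le_rpow hL (by linarith)) (by positivity)
  have hαq : α ^ q = L ^ (q - 2) := by
    rw [hα, ← Real.rpow_mul (by positivity), one_div, inv_mul_cancel₀ hq0.ne', Real.rpow_one]
  have hαα : α * α ≤ L ^ (q - 2) := by
    have h1 : α ^ (2 : ℝ) ≤ α ^ q := Real.rpow_le_rpow_of_exponent_le hα1 hq.le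
    rw [hαq] at h1
    calc α * α = α ^ (2 : ℝ) := by rw [Real.rpow_two, sq]
      _ ≤ _ := h1
  have hlocq : ∀ j, ∀ N ∈ 𝒩, ∑ y ∈ W N.1 N.2, |G j (T j N) y| ^ q ≤ α ^ q * 2 ^ (N.1 + 5) := by
    intro j N hN
    rw [hαq]
    exact lq_of_l2 hq (hGL j _) (hloc j N hN)
  refine (order_cover T 𝒩 (fun N => |wN o (fun j => G j (T j N)) N|) (fun _ => abs_nonneg _)
    (B := 5 * C * P * 2 ^ K * R * (L * M) ^ (γ + 3 * (q - 2))) ?_).trans (le_of_eq (by ring))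
  intro τ 𝒮 h𝒮 hτ
  have hne : ∀ i j : Fin 4, i ≠ j → τ i ≠ τ j := fun i j h h' => h (τ.injective h')
  have hR1 : 1 ≤ R := by
    have h1 := hR _ _ (hne 0 1 (by decide))
    have h2 : 1 ≤ κ (τ 0) * κ (τ 1) := one_le_mul_of_one_le_of_one_le (hκ _) (hκ _)
    by_contra h
    push Not at h
    nlinarith
  obtain ⟨σ, hσ0, hσM, hgm⟩ := sigma_facts (hκ (τ 0)) (hκ (τ 1)) (hκM _) (hκM _) hR0
    (hR _ _ (hne _ _ (by decide)))
  have h4 := hord n (L * M) (P * (L * M) ^ γ) (by positivity) (hroot _ hH1) G T o K V 𝒩 𝒮 hT hGs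
    ho hK hbel hcl (fun _ => α) (fun _ => by linarith)
    (fun j i x => (hGL j i x).trans (hLH.trans (le_mul_of_one_le_right hH0.le hα1))) hlocq
    M⁻¹ L M κ σ (inv_pos.2 hM0) hL0.le (by rw [mul_inv_cancel_right₀ hM0.ne']) hM0 hσ0 hheight
    (fun j => by
      have h5 : ∑ i ∈ tops 𝒩 (T j), ∑ y ∈ W i.1 i.2, |G j i y| ^ 2 ≤
          ∑ i ∈ tops 𝒩 (T j), 32 * (2 : ℝ) ^ i.1 := by
        refine sum_le_sum fun i hi => ?_
        obtain ⟨hi1, hi2⟩ := mem_tops.1 hi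
        have h6 := hloc j i hi1
        rw [hi2] at h6
        refine h6.trans (le_of_eq ?_)
        rw [pow_add]; norm_num; ring
      rw [← mul_sum] at h5
      have h6 := hms j
      have h7 : (2 : ℝ) ^ (K + 5) = 32 * 2 ^ K := by rw [pow_add]; norm_num; ring
      rw [h7]
      linarith)
    (fun j => (hms j).trans (mul_le_mul_of_nonneg_right (hκM j) (by positivity)))
    (τ 0) (τ 1) (τ 2) (τ 3) (hne _ _ (by decide)) (by
        intro j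
        obtain ⟨i, rfl⟩ := τ.surjective j
        fin_cases i <;> simp) (hne _ _ (by decide)) (hne _ _ (by decide)) (hne _ _ (by decide))
      (hne _ _ (by decide)) (hne _ _ (by decide)) h𝒮 hτ
  refine h4.trans ?_
  have e1 : 2 * (q - 1) / 2 - 1 = q - 2 := by ring
  have e2 : 2 * (q - 1) - 2 = 2 * (q - 2) := by ring
  rw [e1, e2]
  have h5 := mbb_num hq hL hM hR1 hσ0 hσM hgm hαα
  have hpos : 0 ≤ C * (P * (L * M) ^ γ) * 2 ^ K := by positivity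
  calc _ = C * (P * (L * M) ^ γ) * 2 ^ K * ((α * α) * (2 + M ^ (q - 2) *
        (M * M⁻¹ ^ (2 * (q - 1)) * (σ + σ⁻¹) +
        L ^ (2 * (q - 2)) * ((σ * κ (τ 0) + σ⁻¹ * κ (τ 1)) / 2)))) := by ring
    _ ≤ C * (P * (L * M) ^ γ) * 2 ^ K * (5 * R * (L * M) ^ (3 * (q - 2))) :=
        mul_le_mul_of_nonneg_left h5 hpos
    _ = 5 * C * P * 2 ^ K * R * (L * M) ^ (γ + 3 * (q - 2)) := by
        rw [Real.rpow_add hH0]; ring

end Vale.Agent.P141.H845
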