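import Vale.Agent.P141.H886.NumOf
import Vale.Agent.P141.H736.FixBD
import Vale.Agent.P141.H74.CutBC
import Vale.Agent.P141.H652.NumR
import Vale.Agent.P141.H652.NumQ
import Vale.Agent.P141.H329.WinS
import Vale.Agent.P141.H302.BornU
import Vale.Agent.P141.H548.LagU
import Vale.Agent.P141.H989.CrB3

/-!
# P141, line (A), increasing part: the leaf `LBCg`

`fE`, `fB` : the two numbers; `sumE`, `sumB` : their sums; `fix_pt` : the fixed `x0` inequality;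
`lBCg` : the leaf.
-/

namespace Vale.Agent.P141.H845.Lbc

open Finset Matrix
open Vale.Agent.P075 (Ix)
open Vale.Agent.P141.PL (Pt iv ix cx mem_iv)
open Vale.Agent.P141.PL.H315 (Tri)
open Vale.Agent.P141.H48 (US ES BSl)
open Vale.Agent.P141.H103 (GW)
open Vale.Agent.P141.H305 (ClsM kapM)
open Vale.Agent.P141.H401 (StQ FibU FibP cb)
open Vale.Agent.P141.H677 (KT rt cP tr_T)
open Vale.Agent.P141.H408
open Vale.Agent.P141.H886 (NumF SumQ SumU SumL FixBC NN numBC_of lbc_end)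
open Vale.Agent.P141.H808 (cS thS)
open Vale.Agent.P141.H419.WFamR
open Vale.Agent.P141.H912 (wS)
open Vale.Agent.P141.H874 Vale.Agent.P141.H457
open Vale.Agent.P141.H548 (vN oN chg kinds)
open Vale.Agent.P141.H302 (bN tS)
open Vale.Agent.P141.H736 (wE)

noncomputable section

open scoped Classical

set_option linter.unusedVariables false

/-- one lag -/
theorem sumL_at {σ : ℝ} {f : ℕ → NumF} (H : SumL σ f) (l : ℕ) : SumU σ (f l) := by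
  refine H886.PairU.map (M := 1) zero_le_one H ?_
  intro ι _ _ p n ez F1 F2 F3 o K x s r U g u v Q1 Q2 Q3 X _ _ _ _ _ h
  rw [one_mul]
  exact h l

/-- charges of every lag -/
def g5 : NumF := fun ι _ _ p n ez F1 F2 F3 o K x s r U g u v Q1 Q2 Q3 x0 =>
  ∑ l ∈ range (K + 1), (3 / 4 : ℝ) ^ l *
    vN 0 l ι p n ez F1 F2 F3 o K x s r U g u v Q1 Q2 Q3 x0

/-- births of every lag -/
def g6 : NumF := fun ι _ _ p n ez F1 F2 F3 o K x s r U g u v Q1 Q2 Q3 x0 =>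
  ∑ l ∈ range (K + 1), (3 / 4 : ℝ) ^ l *
    bN (l + 1) ι p n ez F1 F2 F3 o K x s r U g u v Q1 Q2 Q3 x0

/-- the number of the second slot -/
def fE : NumF := fun ι _ _ p n ez F1 F2 F3 o K x s r U g u v Q1 Q2 Q3 x0 =>
  H989.CrB.fCRB H989.CrB.mB ι p n ez F1 F2 F3 o K x s r U g u v Q1 Q2 Q3 x0 +
  H989.CrB.fBRN H989.CrB.mC ι p n ez F1 F2 F3 o K x s r U g u v Q1 Q2 Q3 x0 +
  oN 0 ι p n ez F1 F2 F3 o K x s r U g u v Q1 Q2 Q3 x0 +
  vN 1 0 ι p n ez F1 F2 F3 o K x s r U g u v Q1 Q2 Q3 x0 +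
  g5 ι p n ez F1 F2 F3 o K x s r U g u v Q1 Q2 Q3 x0 +
  g6 ι p n ez F1 F2 F3 o K x s r U g u v Q1 Q2 Q3 x0

/-- the number of the first slot -/
def fB : NumF := fun ι _ _ p n ez F1 F2 F3 o K x s r U g u v Q1 Q2 Q3 x0 =>
  H652.dB p s r U K x u F3 Q3 x0 +
    H652.payS (beI p r) (p.lam s r) o K (cx K x) u
      (fun k => H652.bS p s r U K u F3 Q3 x0 k) x0

theorem sumE : SumU 1 fE :=
  SumU.add (SumU.add (SumU.add (SumU.add (SumU.add H989.CrB.sumU_mB H989.CrB.sumU_mC)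
    (sumL_at H548.sumL_o 0)) (sumL_at (H548.sumL_v le_rfl) 0)) (H548.sumU_v zero_le_one))
    H302.sumU_b1

theorem sumB : SumU (-1) fB := H652.EBU

section nn

variable {ι : Type} [Fintype ι] [DecidableEq ι] (p : H401.Num) (n : ℕ) (ez : ℝ)
  (F1 F2 F3 : ℕ → Pt → ℝ) (o : ℤ) (K : ℕ) (x : Pt) (s r : ℝ) (U : Tri) (g : ℤ → ℤ → ℝ)
  (u v : ℤ → ℤ → ι → ℝ) (Q1 Q2 Q3 : ℕ → Pt → Prop) (x0 : ℤ)

theorem be_pos (ht : 0 < p.t) (hr : 1 ≤ r) : 0 < beI p r :=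
  Real.rpow_pos_of_pos (div_pos ht (by linarith)) _

theorem wE_nn (ht : 0 < p.t) (hs : 0 < s) (hr : 1 ≤ r) (k : ℕ) (f : ℤ → ℤ → ι → ℝ) (x1 z : ℤ) :
    0 ≤ wE (beI p r) (H989.CrB.TT p s r o K x u x0) k f x1 z :=
  H736.wE_nonneg (be_pos p r ht hr) (fun k x1 m => H652.Th_psd
    (tr_T (H401.Num.lam_pos (p := p) ht hs hr) K u x1) _ _ _ _ _) _ _ _ _

theorem g1_nn (ht : 0 < p.t) (hs : 0 < s) (hr : 1 ≤ r) :
    0 ≤ H989.CrB.fCRB H989.CrB.mB ι p n ez F1 F2 F3 o K x s r U g u v Q1 Q2 Q3 x0 := by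
  unfold H989.CrB.fCRB
  refine sum_nonneg fun k _ => sum_nonneg fun x1 _ => sum_nonneg fun z _ => ?_
  split_ifs
  · exact wE_nn p o K x s r u x0 ht hs hr _ _ _ _
  · exact le_rfl

theorem g2_nn (ht : 0 < p.t) (hs : 0 < s) (hr : 1 ≤ r) :
    0 ≤ H989.CrB.fBRN H989.CrB.mC ι p n ez F1 F2 F3 o K x s r U g u v Q1 Q2 Q3 x0 := by
  unfold H989.CrB.fBRN
  exact sum_nonneg fun k _ => sum_nonneg fun x1 _ => sum_nonneg fun z _ =>
    wE_nn p o K x s r u x0 ht hs hr _ _ _ _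

theorem oN_nn (ht : 0 < p.t) (hs : 0 < s) (hr : 1 ≤ r) (q : ℕ) :
    0 ≤ oN q ι p n ez F1 F2 F3 o K x s r U g u v Q1 Q2 Q3 x0 := by
  unfold H548.oN
  exact sum_nonneg fun x1 _ => sum_nonneg fun z _ => H302.eT_nn ht hs hr _ _ _ _

theorem ck_nn (ht : 0 < p.t) (hs : 0 < s) (hr : 1 ≤ r) (a : ℕ) (x1 z : ℤ) (w : ι → ℝ) :
    0 ≤ kinds p s r o K x u x0 a x1 z w :=
  add_nonneg (add_nonneg (add_nonneg (H548.zm_nonneg ht hs hr o K x u x0 a x1 z w)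
    (H548.ze_nonneg ht hs hr o K x u x0 a x1 z w)) (H548.zd_nonneg ht hs hr o K x u x0 a x1 z w))
    (H548.zq_nonneg ht hs hr o K x u x0 a x1 z w)

theorem vN_nn (ht : 0 < p.t) (hs : 0 < s) (hr : 1 ≤ r) (j q : ℕ) :
    0 ≤ vN j q ι p n ez F1 F2 F3 o K x s r U g u v Q1 Q2 Q3 x0 := by
  unfold H548.vN
  exact sum_nonneg fun k _ => sum_nonneg fun x1 _ => sum_nonneg fun z _ =>
    add_nonneg (H548.chg_nonneg ht hs hr _ _ _ _ _ _ _ _ _) (ck_nn p o K x s r u x0 ht hs hr _ _ _ _)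

theorem bN_nn (ht : 0 < p.t) (hs : 0 < s) (hr : 1 ≤ r) (q : ℕ) :
    0 ≤ bN q ι p n ez F1 F2 F3 o K x s r U g u v Q1 Q2 Q3 x0 := by
  unfold H302.bN
  refine sum_nonneg fun k _ => sum_nonneg fun x1 _ => sum_nonneg fun z _ => ?_
  split_ifs
  · exact H302.eT_nn ht hs hr _ _ _ _
  · exact le_rfl

theorem g5_nn (ht : 0 < p.t) (hs : 0 < s) (hr : 1 ≤ r) :
    0 ≤ g5 ι p n ez F1 F2 F3 o K x s r U g u v Q1 Q2 Q3 x0 :=
  sum_nonneg fun l _ => mul_nonneg (by positivity)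
    (vN_nn p n ez F1 F2 F3 o K x s r U g u v Q1 Q2 Q3 x0 ht hs hr _ _)

theorem g6_nn (ht : 0 < p.t) (hs : 0 < s) (hr : 1 ≤ r) :
    0 ≤ g6 ι p n ez F1 F2 F3 o K x s r U g u v Q1 Q2 Q3 x0 :=
  sum_nonneg fun l _ => mul_nonneg (by positivity)
    (bN_nn p n ez F1 F2 F3 o K x s r U g u v Q1 Q2 Q3 x0 ht hs hr _)

end nn

theorem nnE : NN fE := by
  intro ι _ _ p n ez F1 F2 F3 o K x s r U g u v Q1 Q2 Q3 x0 ht hs hr hez
  have a1 := g1_nn p n ez F1 F2 F3 o K x s r U g u v Q1 Q2 Q3 x0 ht hs hr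
  have a2 := g2_nn p n ez F1 F2 F3 o K x s r U g u v Q1 Q2 Q3 x0 ht hs hr
  have a3 := oN_nn p n ez F1 F2 F3 o K x s r U g u v Q1 Q2 Q3 x0 ht hs hr 0
  have a4 := vN_nn p n ez F1 F2 F3 o K x s r U g u v Q1 Q2 Q3 x0 ht hs hr 1 0
  have a5 := g5_nn p n ez F1 F2 F3 o K x s r U g u v Q1 Q2 Q3 x0 ht hs hr
  have a6 := g6_nn p n ez F1 F2 F3 o K x s r U g u v Q1 Q2 Q3 x0 ht hs hr
  unfold fE
  linarith

theorem nnB : NN fB := by
  intro ι _ _ p n ez F1 F2 F3 o K x s r U g u v Q1 Q2 Q3 x0 ht hs hr hez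
  exact add_nonneg (H652.dB_nonneg x x0)
    (H652.payS_nonneg (be_pos p r ht hr) (H401.Num.lam_pos (p := p) ht hs hr) _)

section pt

variable {ι : Type} [Fintype ι] [DecidableEq ι] {p : H401.Num} {s r ez : ℝ} {o : ℤ} {K : ℕ}
  {x : Pt} {U : Tri} {u v : ℤ → ℤ → ι → ℝ} {F2 : ℕ → Pt → ℝ} {x0 : ℤ}

/-- the letters of the weight -/
abbrev tT (p : H401.Num) (s r : ℝ) (o : ℤ) (K : ℕ) (x : Pt) (u : ℤ → ℤ → ι → ℝ) (x0 : ℤ) :
    ℕ → ℤ → ℤ → Matrix ι ι ℝ := fun k x1 m =>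
  H652.Th (p.lam s r) K (cx K x).2.1 (KT (p.lam s r) u x1) (o - 2) x0 x1 k m

abbrev tE (p : H401.Num) (s r : ℝ) (o : ℤ) (K : ℕ) (x : Pt) (u : ℤ → ℤ → ι → ℝ) (x0 : ℤ) :
    ℕ → ℤ → ℤ → Matrix ι ι ℝ := fun k x1 m =>
  H652.eb (p.lam s r) K (cx K x).2.1 (KT (p.lam s r) u x1) (o - 2) x0 x1 (k + 1) m

abbrev tD (p : H401.Num) (s r : ℝ) (o : ℤ) (K : ℕ) (x : Pt) (u : ℤ → ℤ → ι → ℝ) (x0 : ℤ) :
    ℕ → ℤ → ℤ → Matrix ι ι ℝ := fun k x1 m =>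
  H652.ah (p.lam s r) K (cx K x).2.1 (KT (p.lam s r) u x1) (o - 2) x0 x1 k m

theorem Dn_le (ht : 0 < p.t) (hs : 0 < s) (hr : 1 ≤ r) (f : ℤ → ℤ → ι → ℝ) (a : ℕ) :
    (beI p r)⁻¹ * Dn K (cx K x).2.2 (cx K x).1 (tD p s r o K x u x0) f a ≤
      ∑ x1 ∈ iv K (cx K x).1, ∑ z ∈ iv K (cx K x).2.2,
        (chg p s r o K x u x0 a x1 z (f x1 z) + kinds p s r o K x u x0 a x1 z (f x1 z)) := by
  unfold H419.WFamR.Dn
  rw [mul_sum]
  refine sum_le_sum fun x1 _ => ?_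
  rw [mul_sum]
  refine sum_le_sum fun z _ => ?_
  have h1 := ck_nn p o K x s r u x0 ht hs hr a x1 z (f x1 z)
  have h2 := H548.raw_le ht hs hr o K x u x0 a x1 z (f x1 z)
  have h3 := mul_nonneg (inv_nonneg.2 (be_pos p r ht hr).le)
    (H548.ze_nonneg ht hs hr o K x u x0 a x1 z (f x1 z))
  unfold H548.eN at h3
  linarith

theorem En_le (ht : 0 < p.t) (hs : 0 < s) (hr : 1 ≤ r) (f : ℤ → ℤ → ι → ℝ) (a : ℕ) :
    (beI p r)⁻¹ * En K (cx K x).2.2 (cx K x).1 (tE p s r o K x u x0) f a ≤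
      ∑ x1 ∈ iv K (cx K x).1, ∑ z ∈ iv K (cx K x).2.2,
        (chg p s r o K x u x0 a x1 z (f x1 z) + kinds p s r o K x u x0 a x1 z (f x1 z)) := by
  unfold H419.WFamR.En
  rw [mul_sum]
  refine sum_le_sum fun x1 _ => ?_
  rw [mul_sum]
  refine sum_le_sum fun z _ => ?_
  have h1 := ck_nn p o K x s r u x0 ht hs hr a x1 z (f x1 z)
  have h2 := H548.raw_le ht hs hr o K x u x0 a x1 z (f x1 z)
  have h3 := mul_nonneg (inv_nonneg.2 (be_pos p r ht hr).le)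
    (H447.dot_self_nonneg (H652.ah (p.lam s r) K (cx K x).2.1 (KT (p.lam s r) u x1) (o - 2) x0 x1
      a (ix (a + 1) z) *ᵥ f x1 z))
  linarith

variable (n : ℕ) (F1 F3 : ℕ → Pt → ℝ) (g : ℤ → ℤ → ℝ) (Q1 Q2 Q3 : ℕ → Pt → Prop)

theorem nmD_le (ht : 0 < p.t) (hs : 0 < s) (hr : 1 ≤ r) (q : ℕ) :
    (beI p r)⁻¹ * nmD K (cx K x).2.2 (cx K x).1 (tD p s r o K x u x0) (cS p ez U K v F2 x0) q ≤
      vN 0 q ι p n ez F1 F2 F3 o K x s r U g u v Q1 Q2 Q3 x0 := by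
  unfold H419.WFamR.nmD H548.vN
  rw [mul_sum, range_eq_Ico]
  exact sum_le_sum fun k _ => Dn_le ht hs hr _ _

theorem nmE_le (ht : 0 < p.t) (hs : 0 < s) (hr : 1 ≤ r) (q : ℕ) :
    (beI p r)⁻¹ * nmE K (cx K x).2.2 (cx K x).1 (tE p s r o K x u x0) (cS p ez U K v F2 x0) q ≤
      vN 0 q ι p n ez F1 F2 F3 o K x s r U g u v Q1 Q2 Q3 x0 := by
  unfold H419.WFamR.nmE H548.vN
  rw [mul_sum, range_eq_Ico]
  exact sum_le_sum fun k _ => En_le ht hs hr _ _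

theorem nmD1_le (ht : 0 < p.t) (hs : 0 < s) (hr : 1 ≤ r) (q : ℕ) :
    (beI p r)⁻¹ * nmD K (cx K x).2.2 (cx K x).1 (tD p s r o K x u x0)
      (c1 K (cS p ez U K v F2 x0)) q ≤
      vN 1 q ι p n ez F1 F2 F3 o K x s r U g u v Q1 Q2 Q3 x0 := by
  rw [nmD_c1]
  unfold H548.vN
  rw [mul_sum, range_eq_Ico]
  exact sum_le_sum fun k _ => Dn_le ht hs hr _ _

theorem nmE1_le (ht : 0 < p.t) (hs : 0 < s) (hr : 1 ≤ r) (q : ℕ) :
    (beI p r)⁻¹ * nmE K (cx K x).2.2 (cx K x).1 (tE p s r o K x u x0)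
      (c1 K (cS p ez U K v F2 x0)) q ≤
      vN 1 q ι p n ez F1 F2 F3 o K x s r U g u v Q1 Q2 Q3 x0 := by
  rw [nmE_c1]
  unfold H548.vN
  rw [mul_sum, range_eq_Ico]
  exact sum_le_sum fun k _ => En_le ht hs hr _ _

theorem cS_zero (x1 z : ℤ) : cS p ez U K v F2 x0 0 x1 z = 0 := by
  rw [H548.cS_min, Nat.zero_min]
  unfold H677.kF
  rw [if_pos (Or.inl rfl), mul_zero, zero_smul]

theorem nmH_zero (be : ℝ) (T : ℕ → ℤ → ℤ → Matrix ι ι ℝ) (R S : ℤ) (q : ℕ) :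
    nmH K R S be T (cS p ez U K v F2 x0) q = 0 := by
  unfold H419.WFamR.nmH H419.WFamR.Wn
  refine sum_eq_zero fun x1 _ => sum_eq_zero fun z _ => ?_
  rw [cS_zero, zero_dotProduct]

theorem nmH1_eq : nmH K (cx K x).2.2 (cx K x).1 (beI p r) (tT p s r o K x u x0)
    (c1 K (cS p ez U K v F2 x0)) 0 =
      oN 0 ι p n ez F1 F2 F3 o K x s r U g u v Q1 Q2 Q3 x0 := by
  have e : cS p ez U K v F2 x0 (min (0 + 1) K) = cS p ez U K v F2 x0 1 := by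
    funext x1 z
    rw [H548.cS_min, H548.cS_min, min_assoc, min_self, Nat.zero_add]
  unfold H419.WFamR.nmH H419.WFamR.Wn H419.WFamR.c1 H548.oN
  rw [e, Nat.zero_min]
  rfl

end pt

theorem fix_pt : FixBC 2160000 2 fE fB := by
  intro ι _ _ p n ez F1 F2 F3 o K x s r U g u v Q1 Q2 Q3 ha ha1 he0 he04 hk8 hk3 hc hd hd1 hKt he
    hcP hL ht ht1 h1 h3 h2 ho hKn hs hr hcls q1 q2 q3 hez f1 f2 t _ x0 hx0 z J hz1 hz2 hJ
  have hl : 0 < p.lam s r := H401.Num.lam_pos (p := p) ht hs hr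
  have hy : 0 < p.t / r := div_pos ht (by linarith)
  have hbe : 0 < beI p r := be_pos p r ht hr
  have hbe1 : beI p r ≤ 1 := H548.beI_le_one ht ht1 he0.le hr
  have hth : 0 < p.th s r := H401.Num.th_pos (p := p) ht hs hr
  have hτ : 0 < tauI p s r := by
    unfold H408.tauI
    linarith
  have hz : 0 < z := lt_of_lt_of_le (mul_pos (Real.rpow_pos_of_pos hy _) hτ) hz1
  have hE0 := nnE ι p n ez F1 F2 F3 o K x s r U g u v Q1 Q2 Q3 x0 ht hs hr hez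
  have hB0 := nnB ι p n ez F1 F2 F3 o K x s r U g u v Q1 Q2 Q3 x0 ht hs hr hez
  set E : ℝ := fE ι p n ez F1 F2 F3 o K x s r U g u v Q1 Q2 Q3 x0 with hE
  set EB : ℝ := fB ι p n ez F1 F2 F3 o K x s r U g u v Q1 Q2 Q3 x0 with hEB
  have a1 := g1_nn p n ez F1 F2 F3 o K x s r U g u v Q1 Q2 Q3 x0 ht hs hr
  have a2 := g2_nn p n ez F1 F2 F3 o K x s r U g u v Q1 Q2 Q3 x0 ht hs hr
  have a3 := oN_nn p n ez F1 F2 F3 o K x s r U g u v Q1 Q2 Q3 x0 ht hs hr 0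
  have a4 := vN_nn p n ez F1 F2 F3 o K x s r U g u v Q1 Q2 Q3 x0 ht hs hr 1 0
  have a5 := g5_nn p n ez F1 F2 F3 o K x s r U g u v Q1 Q2 Q3 x0 ht hs hr
  have a6 := g6_nn p n ez F1 F2 F3 o K x s r U g u v Q1 Q2 Q3 x0 ht hs hr
  have hEe : E = H989.CrB.fCRB H989.CrB.mB ι p n ez F1 F2 F3 o K x s r U g u v Q1 Q2 Q3 x0 +
      H989.CrB.fBRN H989.CrB.mC ι p n ez F1 F2 F3 o K x s r U g u v Q1 Q2 Q3 x0 +
      oN 0 ι p n ez F1 F2 F3 o K x s r U g u v Q1 Q2 Q3 x0 +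
      vN 1 0 ι p n ez F1 F2 F3 o K x s r U g u v Q1 Q2 Q3 x0 +
      g5 ι p n ez F1 F2 F3 o K x s r U g u v Q1 Q2 Q3 x0 +
      g6 ι p n ez F1 F2 F3 o K x s r U g u v Q1 Q2 Q3 x0 := rfl
  have hEBe : EB = H652.dB p s r U K x u F3 Q3 x0 +
      H652.payS (beI p r) (p.lam s r) o K (cx K x) u
        (fun k => H652.bS p s r U K u F3 Q3 x0 k) x0 := rfl
  have b1 := H652.dB_nonneg (p := p) (s := s) (r := r) (U := U) (K := K) (u := u) (F3 := F3)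
    (Q3 := Q3) x x0
  have b2 := H652.payS_nonneg (K := K) (M := cx K x) (u := u) (o := o) (x0 := x0) hbe hl
    (fun k => H652.bS p s r U K u F3 Q3 x0 k)
  have hT := H652.wt_Th (fun x1 => tr_T hl K u x1) (cx K x).2.1 (o - 2) x0
  have hK0 : ∀ w m (k : ℕ), k < K → ¬ H302.Pr (cS p ez U K v F2 x0) k w m → ∀ y ∈ iv k m,
      cS p ez U K v F2 x0 (k + 1) y w = cS p ez U K v F2 x0 k y w :=
    fun w m k hk h => H302.pr_not (N := K) k hk w m h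
  refine (H329.WinBC.pBC_cls ht hs hr ez U o K x u v F2 F3 Q3 hτ hz x0).trans ?_
  rw [← H74.CutBC.GW_win_cut]
  refine (H736.fix_BC2 (κ := ι) (be := beI p r) (T := tT p s r o K x u x0)
    (e := tE p s r o K x u x0) (d := tD p s r o K x u x0) hbe hbe1 (s := z ^ 2)
    (q := p.th s r ^ 2) (τ := 2) (by positivity) (by positivity) (by norm_num) le_rfl hT
    (fun k x1 m => H652.Th_le_two (tr_T hl K u x1) (o - 2) x0 x1 k m) (N := K)
    (b := fun k => H652.bS p s r U K u F3 Q3 x0 k)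
    (c := H170.Win.cut K (cx K x).1 (cx K x).2.2 (cS p ez U K v F2 x0))
    (Pb := H652.PbS p s r U K u F3 Q3 x0) (Pc := H302.Pr (cS p ez U K v F2 x0))
    (H652.PbS_off x0) (H74.CutBC.cut_row fun k hk w m h => hK0 w m k hk h)
    (H652.bS_capk hth x0) (H652.bS_capk1 hth x0) (H652.bS_capN hth x0) (C := cCI p s r ^ 2)
    (fun k a n' m hka haK => H74.CapBC.cut_capX ht ht1 hd1 he0.le hs hr hez hKn hcls.toCls q2 x0
      (k := k) (a := a + 1) (j := k) (by omega) (by omega) (by omega) n' m)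
    (fun k a n' m hka haK => H74.CapBC.cut_capX ht ht1 hd1 he0.le hs hr hez hKn hcls.toCls q2 x0
      (k := k) (a := a + 1) (j := k + 1) (by omega) (by omega) (by omega) n' m)
    (J := J) ?hJ (R₁ := (cx K x).2.1) (S₁ := (cx K x).1) (T₁ := (cx K x).2.2) (cc := cP o x0)
    (H677.cP_pl ho x0) (E := E) (EB := EB) hE0 hB0 ?hB1 ?hB2 ?hB3 ?hB4 ?hC0 ?hC1 ?hC2 ?hC3 ?hC4
    ?hW0 ?hW1 ?hW2 ?hW3).trans ?fin
  case hJ =>
    have e : (2 * cCI p s r) ^ 2 = 4 * cCI p s r ^ 2 := by ring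
    rw [e] at hJ
    have := sq_nonneg (cCI p s r)
    linarith
  case hB1 =>
    exact (H652.bS_hB1 x x0).trans (by linarith)
  case hB2 =>
    exact (H652.bS_hB2 x x0).trans (by linarith)
  case hB3 =>
    exact (H652.pay_hB3 hbe hl (fun k => H652.bS p s r U K u F3 Q3 x0 k)).trans (by linarith)
  case hB4 =>
    exact (H652.pay_hB4 hbe (fun k => H652.bS p s r U K u F3 Q3 x0 k)).trans (by linarith)
  case hC0 =>
    rw [H74.CutBC.c1_cut, H74.CutBC.nmH_cut, nmH1_eq n F1 F3 g Q1 Q2 Q3]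
    linarith
  case hC1 =>
    rw [H74.CutBC.c1_cut, H74.CutBC.nmD_cut]
    exact (nmD1_le n F1 F3 g Q1 Q2 Q3 ht hs hr 0).trans (by linarith)
  case hC2 =>
    rw [H74.CutBC.c1_cut, H74.CutBC.nmE_cut]
    exact (nmE1_le n F1 F3 g Q1 Q2 Q3 ht hs hr 0).trans (by linarith)
  case hC3 =>
    refine le_trans (le_of_eq ?_) (show
      H989.CrB.fCRB H989.CrB.mB ι p n ez F1 F2 F3 o K x s r U g u v Q1 Q2 Q3 x0 ≤ E by linarith)
    refine sum_congr rfl fun k hk => sum_congr rfl fun x1 hx1 => sum_congr rfl fun z' hz' => ?_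
    have hk1 : k + 1 ≤ K := (mem_Ico.1 hk).2
    rw [H74.CutBC.wE_cut hk1 hx1 hz']
    rfl
  case hC4 =>
    refine le_trans (le_of_eq ?_) (show
      H989.CrB.fBRN H989.CrB.mC ι p n ez F1 F2 F3 o K x s r U g u v Q1 Q2 Q3 x0 ≤ E by linarith)
    refine sum_congr rfl fun k hk => ?_
    have hk1 : k + 1 ≤ K := (mem_Ico.1 hk).2
    rw [H74.CutBC.Wn_rs_cut hk1]
    rfl
  case hW0 =>
    rw [H74.CutBC.nmH_cut]
    unfold H912.wS
    refine le_trans (le_of_eq (sum_eq_zero fun q _ => ?_)) hE0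
    rw [nmH_zero, mul_zero]
  case hW1 =>
    rw [H74.CutBC.nmD_cut]
    refine le_trans (H912.wS_mono fun q => nmD_le n F1 F3 g Q1 Q2 Q3 ht hs hr q) ?_
    show g5 ι p n ez F1 F2 F3 o K x s r U g u v Q1 Q2 Q3 x0 ≤ E
    linarith
  case hW2 =>
    rw [H74.CutBC.nmE_cut]
    refine le_trans (H912.wS_mono fun q => nmE_le n F1 F3 g Q1 Q2 Q3 ht hs hr q) ?_
    show g5 ι p n ez F1 F2 F3 o K x s r U g u v Q1 Q2 Q3 x0 ≤ E
    linarith
  case hW3 =>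
    rw [H74.CutBC.nmB_cut]
    refine le_trans (H912.wS_mono fun q => H302.nmB_bN ht hs hr
      (fun k w m h => H302.pr_ch k w m h) q n F1 F3 g Q1 Q2 Q3) ?_
    show g6 ι p n ez F1 F2 F3 o K x s r U g u v Q1 Q2 Q3 x0 ≤ E
    linarith
  case fin =>
    have hq : p.th s r ^ 2 ≤ tauI p s r ^ 2 := by
      unfold H408.tauI
      nlinarith [sq_nonneg (p.th s r)]
    have e : 18 * (120000 * ((J : ℝ) + 1) ^ 3) = 2160000 * ((J : ℝ) + 1) ^ 3 := by ring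
    rw [e]
    refine mul_le_mul_of_nonneg_left (add_le_add (Real.sqrt_le_sqrt ?_) ?_) (by positivity)
    · exact mul_le_mul_of_nonneg_left (mul_le_mul_of_nonneg_right hq hB0) (by positivity)
    · exact mul_le_mul_of_nonneg_right hq hE0

/-- **The numbers of the pair.** -/
theorem numBC : H886.NumBC 2160000 2 := numBC_of sumE sumB nnE nnB fix_pt

/-- **The leaf.** -/
theorem lBCg : H408.LBCg := lbc_end (by norm_num) (by norm_num) numBC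

end

end Vale.Agent.P141.H845.Lbc
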