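import Vale.Agent.P141.H845.MbbK
import Vale.Agent.P141.PL.H855.Mov

/-!
# P141, line W: the black box for four block families (the Prop `MBB2` of `H855`)
-/

namespace Vale.Agent.P141.H845

open Finset Vale.Agent.P141.PL.H855
open Vale.Agent.P141.PL.H571 (W mem_W)

/-- **The black box for four block families.** -/
theorem mbb2 {q γ : ℝ} (hq : 2 < q) (hγ : 0 ≤ γ) (hs : γ + 3 * (q - 2) ≤ 1 / 2) :
    MBB2 q γ (γ + 3 * (q - 2)) (2 * (γ + 3 * (q - 2))) := by
  classical
  obtain ⟨C, hC, key⟩ := mbbK hq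
  refine ⟨C, hC.le, ?_⟩
  intro n P hP hroot o ho w 𝒲 hwn hReg A e K h Lh Lk R hA he hK hh hLh hLk hhe hKk hR0 hR
  set s := γ + 3 * (q - 2) with hsdef
  have hs0 : 0 ≤ s := by rw [hsdef]; linarith
  have hex := fun j => (hA j).win
  choose T G hT hTG using hex
  -- the blocks
  set G' : Fin 4 → ℕ × ℤ → ℤ → ℝ := fun j i => if i ∈ 𝒲 then cut i (A j i) else 0 with hG'
  have hval : ∀ j, ∀ N ∈ 𝒲, ∀ y ∈ W N.1 N.2, G' j (T j N) y = A j N y := by
    intro j N hN y hy
    have hTN := (hT j).mem N hN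
    have hb := (hT j).bel N hN
    have hy' : y ∈ W (T j N).1 (T j N).2 := bel_W_sub hb hy
    have htop : T j (T j N) = T j N := (hT j).conv N hN _ hTN hb (bel_refl _)
    simp only [hG']
    rw [if_pos hTN, cut_of_mem hy', hTG j _ hTN y hy', htop, hTG j N hN y hy]
  have hwin : ∀ j, Win 𝒲 (T j) := fun j => ⟨(hT j).mem, (hT j).bel, (hT j).conv⟩
  have htops : ∀ j (M : ℕ × ℤ), (H845.tops 𝒲 (T j)).filter (fun i => Bel i M) =
      PL.H855.tops 𝒲 (T j) M := by
    intro j M
    ext i
    rw [mem_filter, H845.mem_tops, PL.H855.mem_tops]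
    tauto
  have h1 := key n γ P hγ hs hP hroot G' T o w.1 w.2 𝒲 hwin (fun j i => by
      simp only [hG']
      split_ifs
      · exact cut_supp _ _
      · simp) ho hwn
    (fun N hN => ⟨hReg.pos N hN, (hReg.bel N hN).1, (hReg.bel N hN).2⟩)
    (fun N hN k' h2 h3 => by
      have h4 : Bel N (k', N.2 / 2 ^ (k' - N.1)) := ⟨h2, rfl⟩
      exact hReg.cl N hN _ h4 (bel_of_le h4 (hReg.bel N hN) h3))
    Lh Lk e K hLh hLk he hK hKk
    (fun j i x => by
      simp only [hG']
      have h0 : 0 ≤ Lh * Real.sqrt (e j) := mul_nonneg (by linarith) (Real.sqrt_nonneg _)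
      split_ifs with hi
      · unfold cut
        split_ifs with hx
        · exact ((hA j).sup i hi x hx).trans (hhe j)
        · simpa using h0
      · simpa using h0)
    (fun j N hN => by
      refine le_trans (le_of_eq ?_) ((hA j).en N hN)
      refine sum_congr rfl fun y hy => ?_
      rw [hval j N hN y hy, sq_abs])
    (fun j M hM => by
      have h2 := (hT j).pack M hM
      rw [← htops j M] at h2
      convert h2 using 2) R hR hR0
  have h2 : TT o 𝒲 A = ∑ N ∈ 𝒲, |wN o (fun j => G' j (T j N)) N| := by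
    unfold TT
    refine sum_congr rfl fun N hN => ?_
    congr 1
    exact PL.H855.wN_congr ho fun j y hy => (hval j N hN y hy).symm
  rw [h2]
  refine h1.trans (le_of_eq ?_)
  have e1 : ∏ j, Real.sqrt (e j) = √(∏ j, e j) := by
    rw [Real.sqrt_eq_rpow, ← Real.finsetProd_rpow _ _ (fun j _ => (he j).le)]
    exact prod_congr rfl fun j _ => Real.sqrt_eq_rpow _
  have e2 : (Lh * Lk ^ 2) ^ s = Lh ^ s * Lk ^ (2 * s) := by
    rw [Real.mul_rpow (by linarith) (by positivity), ← Real.rpow_natCast, ← Real.rpow_mul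
      (by linarith)]
    norm_num
  rw [e1, e2]
  ring

end Vale.Agent.P141.H845
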