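import Vale.Agent.P141.H876.WinS

/-!
# P141, line (A): the moving slot with masks by windows

`Mm` : the matrices of the layers, kept only in the windows of the cells `(j, J)` of a family of
cells of `x₀`.

* `Mm_eq` : nothing changes at the layers below a cell of the family, points near `y`;
* `Lm_mask`, `Rm_mask`, `Rs_mask` : the slot and its averages do not change if the signs vanish
  elsewhere;
* `En_mask` : the energy of all the layers is at most `5 Σ 2 ^ j |w|²`.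
-/

namespace Vale.Agent.P141.H845

open Finset Matrix
open Vale.Agent.P141.PL (iv ix hs mem_iv ix_ix)
open Vale.Agent.P141.H922 (ck tsum_iv)
open Vale.Agent.P141.H43 (avv nsq nsq_nonneg)
open Vale.Agent.P141.H841 (Lm Rm Rs st)
open Vale.Agent.P141.H876 (wn En)
open Vale.Agent.P141.H420 (Tr)

noncomputable section

open scoped Classical

variable {ι : Type*} [Fintype ι]

/-- `q` is in the window of one of the cells -/
def InW (J : Finset (ℕ × ℤ)) (x1 y : ℤ) (i : ℕ) (q : ℤ) : Prop :=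
  ∃ p ∈ J, i ≤ p.1 ∧ ix (p.1 - i) q ∈ wn p.1 p.2 x1 (ix p.1 y)

/-- the matrices in the windows of the cells -/
def Mm (J : Finset (ℕ × ℤ)) (x1 y : ℤ) (Mx : ℕ → ℤ → Matrix ι ι ℝ) : ℕ → ℤ → Matrix ι ι ℝ :=
  fun i q => if InW J x1 y i q then Mx i q else 0

variable {J : Finset (ℕ × ℤ)} {Mx : ℕ → ℤ → Matrix ι ι ℝ} {o x1 y : ℤ} {s : ℕ → ℤ → ℤ → ℝ}

omit [Fintype ι] in
/-- nothing changes below a cell of the family, points near `y` -/
theorem Mm_eq (ho : o = 1 ∨ o = -1) {p : ℕ × ℤ} (hp : p ∈ J) {i : ℕ} (hi : i ≤ p.1) {x0 P : ℤ}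
    (hx : ix p.1 x0 = p.2) (h1 : ix p.1 y - 1 ≤ ix p.1 P) (h2 : ix p.1 P ≤ ix p.1 y + 1) :
    Mm J x1 y Mx i (ck o x1 P i - ix i x0) = Mx i (ck o x1 P i - ix i x0) := by
  unfold Mm
  refine if_pos ⟨p, hp, hi, ?_⟩
  refine H876.tie_mem ho hi h1 h2 ?_
  rw [mem_iv, ix_ix, Nat.add_sub_cancel' hi]
  exact hx

omit [Fintype ι] in
/-- the layers do not change if the signs vanish elsewhere -/
theorem Lm_mask (ho : o = 1 ∨ o = -1) {i : ℕ} {x0 P : ℤ}
    (h : s i (ix i x0) (ix i P) = 0 ∨ ∃ p ∈ J, i ≤ p.1 ∧ ix p.1 x0 = p.2 ∧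
      ix p.1 y - 1 ≤ ix p.1 P ∧ ix p.1 P ≤ ix p.1 y + 1) :
    Lm (Mm J x1 y Mx) o x1 s i x0 P = Lm Mx o x1 s i x0 P := by
  unfold Lm
  rcases h with h | ⟨p, hp, hi, hx, h1, h2⟩
  · rw [h, zero_mul, zero_smul, zero_smul]
  · rw [Mm_eq ho hp hi hx h1 h2]

omit [Fintype ι] in
/-- the slot does not change if the signs vanish elsewhere -/
theorem Rm_mask (ho : o = 1 ∨ o = -1) {n j : ℕ} {x0 P : ℤ}
    (h : ∀ i, j ≤ i → i < n → s (i + 1) (ix (i + 1) x0) (ix (i + 1) P) = 0 ∨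
      ∃ p ∈ J, i + 1 ≤ p.1 ∧ ix p.1 x0 = p.2 ∧ ix p.1 y - 1 ≤ ix p.1 P ∧
        ix p.1 P ≤ ix p.1 y + 1) :
    Rm (Mm J x1 y Mx) o x1 s n j x0 P = Rm Mx o x1 s n j x0 P := by
  unfold Rm
  refine sum_congr rfl fun i hi => ?_
  rw [mem_Ico] at hi
  exact Lm_mask ho (h i hi.1 hi.2)

omit [Fintype ι] in
/-- the averages of the slot do not change if the signs vanish elsewhere -/
theorem Rs_mask (ho : o = 1 ∨ o = -1) {n k : ℕ} {sh x0 m : ℤ}
    (h : ∀ P ∈ iv k m, ∀ i < n, s (i + 1) (ix (i + 1) x0) (ix (i + 1) (P + sh)) = 0 ∨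
      ∃ p ∈ J, i + 1 ≤ p.1 ∧ ix p.1 x0 = p.2 ∧ ix p.1 y - 1 ≤ ix p.1 (P + sh) ∧
        ix p.1 (P + sh) ≤ ix p.1 y + 1) :
    Rs (Mm J x1 y Mx) o x1 s n sh k x0 m = Rs Mx o x1 s n sh k x0 m := by
  unfold Rs H43.avv
  congr 1
  refine sum_congr rfl fun P hP => ?_
  exact Rm_mask ho fun i _ hi => h P hP i hi

/-- a layer with masks by the windows -/
theorem nsq_Mm_le (i : ℕ) (q : ℤ) (w : ι → ℝ) :
    nsq (Mm J x1 y Mx i q *ᵥ w) ≤ ∑ p ∈ J, if i ≤ p.1 then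
      ∑ R ∈ wn p.1 p.2 x1 (ix p.1 y), (if ix (p.1 - i) q = R then nsq (Mx i q *ᵥ w) else 0)
      else 0 := by
  have h0 : ∀ p ∈ J, 0 ≤ (if i ≤ p.1 then
      ∑ R ∈ wn p.1 p.2 x1 (ix p.1 y), (if ix (p.1 - i) q = R then nsq (Mx i q *ᵥ w) else 0)
      else 0) := by
    intro p _
    split_ifs
    · refine sum_nonneg fun R _ => ?_
      split_ifs
      · exact nsq_nonneg _
      · exact le_rfl
    · exact le_rfl
  by_cases hq : InW J x1 y i q
  · obtain ⟨p, hp, hi, hR⟩ := hq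
    have e : Mm J x1 y Mx i q = Mx i q := if_pos ⟨p, hp, hi, hR⟩
    rw [e]
    refine le_trans ?_ (single_le_sum h0 hp)
    rw [if_pos hi, sum_ite_eq, if_pos hR]
  · have e : Mm J x1 y Mx i q = 0 := if_neg hq
    rw [e, zero_mulVec, H841.nsq_zero]
    exact sum_nonneg h0

/-- the energy of a layer with masks -/
theorem En_mask_le {n : ℕ} (T M3 : ℤ) (i : ℕ) (w : ι → ℝ) :
    En (Mm J x1 y Mx) n T x1 M3 i w ≤ ∑ p ∈ J, if i ≤ p.1 then
      ∑ R ∈ wn p.1 p.2 x1 (ix p.1 y), 2 ^ i * ∑ q ∈ iv (p.1 - i) R, nsq (Mx i q *ᵥ w) else 0 := by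
  unfold H876.En
  rw [H922.biU_sum]
  set U := (wn n T x1 M3).biUnion (iv (n - i)) with hU
  have h1 := sum_le_sum fun q (_ : q ∈ U) => nsq_Mm_le (J := J) (Mx := Mx) (x1 := x1) (y := y) i q w
  rw [sum_comm] at h1
  refine (mul_le_mul_of_nonneg_left h1 (by positivity)).trans ?_
  rw [mul_sum]
  refine sum_le_sum fun p _ => ?_
  split_ifs with hi
  · rw [sum_comm, mul_sum]
    refine sum_le_sum fun R _ => mul_le_mul_of_nonneg_left ?_ (by positivity)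
    rw [← sum_filter]
    refine sum_le_sum_of_subset_of_nonneg (fun q hq => ?_) fun q _ _ => nsq_nonneg _
    rw [mem_filter] at hq
    exact mem_iv.2 hq.2
  · simp

/-- **The energy of all the layers with masks by the windows of the cells of `J`.** -/
theorem En_mask [DecidableEq ι] {n : ℕ} {l : ℝ} {G K : ℕ → ℤ → Matrix ι ι ℝ} (h : Tr l n G K)
    (hM : ∀ k m a, Mx k m *ᵥ a = H483.mT l K k m a) (hJ : ∀ p ∈ J, p.1 ≤ n) (T M3 : ℤ)
    (w : ι → ℝ) :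
    ∑ i ∈ range n, En (Mm J x1 y Mx) n T x1 M3 (i + 1) w ≤ 5 * (∑ p ∈ J, 2 ^ p.1) * nsq w := by
  have h1 := sum_le_sum fun i (_ : i ∈ range n) =>
    En_mask_le (J := J) (Mx := Mx) (x1 := x1) (y := y) (n := n) T M3 (i + 1) w
  refine h1.trans ?_
  rw [sum_comm, mul_sum, sum_mul]
  refine sum_le_sum fun p hp => ?_
  set g : ℕ → ℝ := fun i => ∑ R ∈ wn p.1 p.2 x1 (ix p.1 y),
    2 ^ i * ∑ q ∈ iv (p.1 - i) R, nsq (Mx i q *ᵥ w) with hg
  have e1 : ∑ i ∈ range n, (if i + 1 ≤ p.1 then g (i + 1) else 0) = ∑ i ∈ Icc 1 p.1, g i := by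
    rw [← sum_filter]
    have e2 : (range n).filter (fun i => i + 1 ≤ p.1) = range p.1 := by
      ext i
      rw [mem_filter, mem_range, mem_range]
      have := hJ p hp
      omega
    rw [e2, range_eq_Ico, sum_Ico_add' g 0 p.1 1]
    rfl
  refine le_trans (le_of_eq e1) ?_
  rw [hg, sum_comm]
  have e3 : ∀ R ∈ wn p.1 p.2 x1 (ix p.1 y), ∑ i ∈ Icc 1 p.1,
      2 ^ i * ∑ q ∈ iv (p.1 - i) R, nsq (Mx i q *ᵥ w) ≤ 2 ^ p.1 * nsq w := by
    intro R _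
    have h2 := H690.MX_sum_le' h w (hJ p hp) R
    have h3 := tsum_iv (fun j i => (H690.MX l K j i *ᵥ w) ⬝ᵥ (H690.MX l K j i *ᵥ w)) p.1 R
    have h4 := mul_le_mul_of_nonneg_left h2 (by positivity : (0 : ℝ) ≤ 2 ^ p.1)
    rw [h3] at h4
    refine le_trans (le_of_eq (sum_congr rfl fun i _ => ?_)) h4
    congr 1
    refine sum_congr rfl fun m _ => ?_
    rw [hM, H690.MX_mulVec]
    rfl
  refine (sum_le_sum e3).trans (le_of_eq ?_)
  rw [sum_const, nsmul_eq_mul, H876.card_wn]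
  ring

end

end Vale.Agent.P141.H845
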