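import Vale.Agent.P141.H845.Sgn

/-!
# P141, line W: the moving black box

Four block type slots: the slot `j` has at the node `N` the value `G j (T j N)`, where `T j N` is the
top of the window of `N` (windows are convex).  If the local sizes are `α j`, then the sum over the
nodes is at most `RootQ constant * max over pairs α c * α d` up to powers of the height.
-/

namespace Vale.Agent.P141.H845

open Finset Vale.Agent.P141.PL.H855
open Vale.Agent.P141.PL.H571 (W)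

/-! ### the order of the nodes -/

theorem bel_refl (N : ℕ × ℤ) : Bel N N := ⟨le_rfl, by simp⟩

theorem bel_trans {A B C : ℕ × ℤ} (h : Bel A B) (h' : Bel B C) : Bel A C := by
  refine ⟨h.1.trans h'.1, ?_⟩
  have e : C.1 - A.1 = (B.1 - A.1) + (C.1 - B.1) := by have := h.1; have := h'.1; omega
  rw [e, ediv_pow_add, h.2, h'.2]

/-- two ancestors of a node are comparable -/
theorem bel_of_le {N A B : ℕ × ℤ} (h : Bel N A) (h' : Bel N B) (hAB : A.1 ≤ B.1) : Bel A B := by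
  refine ⟨hAB, ?_⟩
  have e : B.1 - N.1 = (A.1 - N.1) + (B.1 - A.1) := by have := h.1; omega
  rw [← h.2, ← h'.2, e, ediv_pow_add]

theorem bel_eq {N A B : ℕ × ℤ} (h : Bel N A) (h' : Bel N B) (hAB : A.1 = B.1) : A = B := by
  have h1 := bel_of_le h h' hAB.le
  refine Prod.ext hAB ?_
  have h2 := h1.2
  rwa [hAB, Nat.sub_self, pow_zero, Int.ediv_one] at h2

theorem bel_W_sub {N A : ℕ × ℤ} (h : Bel N A) : W N.1 N.2 ⊆ W A.1 A.2 := by
  have := H845.W_sub h.1 N.2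
  rwa [h.2] at this

/-- the windows of a slot: `T N` is the top of the window of `N` -/
structure Win (𝒩 : Finset (ℕ × ℤ)) (T : ℕ × ℤ → ℕ × ℤ) : Prop where
  mem : ∀ N ∈ 𝒩, T N ∈ 𝒩
  bel : ∀ N ∈ 𝒩, Bel N (T N)
  conv : ∀ N ∈ 𝒩, ∀ M ∈ 𝒩, Bel N M → Bel M (T N) → T M = T N

theorem Win.top {𝒩 : Finset (ℕ × ℤ)} {T : ℕ × ℤ → ℕ × ℤ} (h : Win 𝒩 T) {N : ℕ × ℤ} (hN : N ∈ 𝒩) :
    T (T N) = T N := h.conv N hN _ (h.mem N hN) (h.bel N hN) (bel_refl _)

/-- the tops -/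
noncomputable def tops (𝒩 : Finset (ℕ × ℤ)) (T : ℕ × ℤ → ℕ × ℤ) : Finset (ℕ × ℤ) := by
  classical exact 𝒩.filter fun M => T M = M

theorem mem_tops {𝒩 : Finset (ℕ × ℤ)} {T : ℕ × ℤ → ℕ × ℤ} {M : ℕ × ℤ} :
    M ∈ tops 𝒩 T ↔ M ∈ 𝒩 ∧ T M = M := by
  classical
  unfold tops; rw [mem_filter]

/-- cut to the window of a node -/
noncomputable def cut (M : ℕ × ℤ) (g : ℤ → ℝ) (y : ℤ) : ℝ := if y ∈ W M.1 M.2 then g y else 0

theorem cut_of_mem {M : ℕ × ℤ} {g : ℤ → ℝ} {y : ℤ} (h : y ∈ W M.1 M.2) : cut M g y = g y := by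
  unfold cut; rw [if_pos h]

theorem abs_cut_le (M : ℕ × ℤ) (g : ℤ → ℝ) (y : ℤ) : |cut M g y| ≤ |g y| := by
  unfold cut
  split_ifs
  · exact le_rfl
  · rw [abs_zero]; exact abs_nonneg _

theorem cut_supp (M : ℕ × ℤ) (g : ℤ → ℝ) : (Function.support (cut M g)).Finite := by
  refine (W M.1 M.2).finite_toSet.subset fun y hy => ?_
  by_contra h
  apply hy
  unfold cut
  rw [if_neg]
  exact h

/-! ### joint windows of two slots -/

/-- the lower one of two tops -/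
def jt (T T' : ℕ × ℤ → ℕ × ℤ) (N : ℕ × ℤ) : ℕ × ℤ := if (T N).1 ≤ (T' N).1 then T N else T' N

section Joint

variable {𝒩 : Finset (ℕ × ℤ)} {T T' : ℕ × ℤ → ℕ × ℤ} (h : Win 𝒩 T) (h' : Win 𝒩 T')
include h h'

theorem jt_mem {N : ℕ × ℤ} (hN : N ∈ 𝒩) : jt T T' N ∈ 𝒩 := by
  unfold jt
  split_ifs
  · exact h.mem N hN
  · exact h'.mem N hN

theorem jt_bel {N : ℕ × ℤ} (hN : N ∈ 𝒩) : Bel N (jt T T' N) := by
  unfold jt
  split_ifs
  · exact h.bel N hN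
  · exact h'.bel N hN

theorem jt_bel_left {N : ℕ × ℤ} (hN : N ∈ 𝒩) : Bel (jt T T' N) (T N) := by
  refine bel_of_le (jt_bel h h' hN) (h.bel N hN) ?_
  unfold jt
  split_ifs with h1
  · exact le_rfl
  · exact (not_le.1 h1).le

theorem jt_bel_right {N : ℕ × ℤ} (hN : N ∈ 𝒩) : Bel (jt T T' N) (T' N) := by
  refine bel_of_le (jt_bel h h' hN) (h'.bel N hN) ?_
  unfold jt
  split_ifs with h1
  · exact h1
  · exact le_rfl

theorem jt_left {N : ℕ × ℤ} (hN : N ∈ 𝒩) : T (jt T T' N) = T N :=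
  h.conv N hN _ (jt_mem h h' hN) (jt_bel h h' hN) (jt_bel_left h h' hN)

theorem jt_right {N : ℕ × ℤ} (hN : N ∈ 𝒩) : T' (jt T T' N) = T' N :=
  h'.conv N hN _ (jt_mem h h' hN) (jt_bel h h' hN) (jt_bel_right h h' hN)

theorem jt_jt {N : ℕ × ℤ} (hN : N ∈ 𝒩) : jt T T' (jt T T' N) = jt T T' N := by
  conv_lhs => unfold jt
  rw [show (if (T N).1 ≤ (T' N).1 then T N else T' N) = jt T T' N from rfl,
    jt_left h h' hN, jt_right h h' hN]
  rfl

end Joint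

/-- the region of the joint window with the top `r` -/
noncomputable def reg (𝒩 : Finset (ℕ × ℤ)) (T T' : ℕ × ℤ → ℕ × ℤ) (r : ℕ × ℤ) : Finset (ℕ × ℤ) := by
  classical exact 𝒩.filter fun N => Bel N r ∧ T N = T r ∧ T' N = T' r

theorem mem_reg {𝒩 : Finset (ℕ × ℤ)} {T T' : ℕ × ℤ → ℕ × ℤ} {r N : ℕ × ℤ} :
    N ∈ reg 𝒩 T T' r ↔ N ∈ 𝒩 ∧ Bel N r ∧ T N = T r ∧ T' N = T' r := by
  classical
  unfold reg; rw [mem_filter]

/-- elementary: the square root of a product through a threshold -/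
theorem rpow_two_div_le {p x M : ℝ} (hp : 2 ≤ p) (hx : 0 ≤ x) (hM : 0 < M) :
    x ^ (2 / p) ≤ M⁻¹ + M ^ (p / 2 - 1) * x := by
  have hp0 : 0 < p := by linarith
  rcases le_total (x ^ (2 / p)) M⁻¹ with h | h
  · have : 0 ≤ M ^ (p / 2 - 1) * x := mul_nonneg (Real.rpow_nonneg hM.le _) hx
    linarith
  · have hMi : 0 < M⁻¹ := inv_pos.2 hM
    -- x = (x^(2/p))^(p/2)
    set z := x ^ (2 / p) with hz
    have hz0 : 0 < z := hMi.trans_le h
    have e : x = z ^ (p / 2) := by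
      rw [hz, ← Real.rpow_mul hx, div_mul_div_comm, mul_comm 2 p, div_self (by positivity),
        Real.rpow_one]
    have h1 : z = z ^ (p / 2) * z ^ (1 - p / 2) := by
      rw [← Real.rpow_add hz0, show p / 2 + (1 - p / 2) = 1 by ring, Real.rpow_one]
    have h2 : z ^ (1 - p / 2) ≤ M⁻¹ ^ (1 - p / 2) :=
      Real.rpow_le_rpow_of_nonpos hMi h (by linarith)
    have h3 : M⁻¹ ^ (1 - p / 2) = M ^ (p / 2 - 1) := by
      rw [Real.inv_rpow hM.le, ← Real.rpow_neg hM.le]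
      congr 1
      ring
    have h4 : 0 ≤ z ^ (p / 2) := Real.rpow_nonneg hz0.le _
    calc z = z ^ (p / 2) * z ^ (1 - p / 2) := h1
      _ ≤ z ^ (p / 2) * M ^ (p / 2 - 1) := by
          rw [← h3]; exact mul_le_mul_of_nonneg_left h2 h4
      _ = M ^ (p / 2 - 1) * x := by rw [← e]; ring
      _ ≤ M⁻¹ + M ^ (p / 2 - 1) * x := by linarith

theorem mul_rpow_le {p x y M : ℝ} (hp : 2 ≤ p) (hx : 0 ≤ x) (hy : 0 ≤ y) (hM : 0 < M) :
    x ^ (1 / p) * y ^ (1 / p) ≤ M⁻¹ + M ^ (p / 2 - 1) * ((x + y) / 2) := by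
  have h1 := rpow_two_div_le hp hx hM
  have h2 := rpow_two_div_le hp hy hM
  have e : ∀ z : ℝ, 0 ≤ z → z ^ (2 / p) = (z ^ (1 / p)) ^ 2 := by
    intro z hz
    rw [← Real.rpow_natCast, ← Real.rpow_mul hz]
    congr 1
    push_cast
    ring
  rw [e x hx] at h1
  rw [e y hy] at h2
  nlinarith [sq_nonneg (x ^ (1 / p) - y ^ (1 / p))]

theorem mul_rpow_le_sigma {p x y M σ : ℝ} (hp : 2 ≤ p) (hx : 0 ≤ x) (hy : 0 ≤ y) (hM : 0 < M)
    (hσ : 0 < σ) :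
    x ^ (1 / p) * y ^ (1 / p) ≤ M⁻¹ + M ^ (p / 2 - 1) * ((σ * x + σ⁻¹ * y) / 2) := by
  have hσi : 0 < σ⁻¹ := inv_pos.2 hσ
  have h1 := mul_rpow_le (x := σ * x) (y := σ⁻¹ * y) hp (by positivity) (by positivity) hM
  rwa [Real.mul_rpow hσ.le hx, Real.mul_rpow hσi.le hy, mul_mul_mul_comm,
    ← Real.mul_rpow hσ.le hσi.le, mul_inv_cancel₀ hσ.ne', Real.one_rpow, one_mul] at h1

/-! ### one order of the tops -/

/-- the two slots `a`, `b` have lower tops than `c`, `d` -/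
theorem mbb_order {q p : ℝ} (hq : 0 < q) (hqp : q < p) (hp2 : 2 ≤ p) : ∃ C : ℝ, 0 < C ∧
    ∀ (n : ℕ) (H P : ℝ), 0 ≤ P → RootQ q n H P →
    ∀ (G : Fin 4 → ℕ × ℤ → ℤ → ℝ) (T : Fin 4 → ℕ × ℤ → ℕ × ℤ)
    (o : ℤ) (K : ℕ) (V : ℤ) (𝒩 𝒮 : Finset (ℕ × ℤ)), (∀ j, Win 𝒩 (T j)) →
    (∀ j i, (Function.support (G j i)).Finite) → (o = 1 ∨ o = -1) → K ≤ n →
    (∀ N ∈ 𝒩, 1 ≤ N.1 ∧ N.1 ≤ K ∧ N.2 / 2 ^ (K - N.1) = V) →
    (∀ N ∈ 𝒩, ∀ k', N.1 ≤ k' → k' ≤ K → (k', N.2 / 2 ^ (k' - N.1)) ∈ 𝒩) →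
    ∀ (α : Fin 4 → ℝ), (∀ j, 0 < α j) → (∀ j i x, |G j i x| ≤ H * α j) →
    (∀ j, ∀ N ∈ 𝒩, ∑ y ∈ W N.1 N.2, |G j (T j N) y| ^ q ≤ α j ^ q * 2 ^ (N.1 + 5)) →
    ∀ (φ H' M : ℝ) (Λ : Fin 4 → ℝ) (σ : ℝ), 0 < φ → 0 ≤ H' → H' ≤ H * φ → 0 < M → 0 < σ →
    (∀ j y, ∑ i ∈ tops 𝒩 (T j), |cut i (G j i) y| ≤ H') →
    (∀ j, ∑ i ∈ tops 𝒩 (T j), ∑ y ∈ W i.1 i.2, |G j i y| ^ 2 ≤ Λ j * 2 ^ (K + 5)) →
    (∀ j, ∑ i ∈ tops 𝒩 (T j), (2 : ℝ) ^ i.1 ≤ M * 2 ^ K) →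
    ∀ a b c d : Fin 4, a ≠ b → (∀ j, j = a ∨ j = b ∨ j = c ∨ j = d) → a ≠ c → a ≠ d → b ≠ c →
    b ≠ d → c ≠ d → 𝒮 ⊆ 𝒩 →
    (∀ N ∈ 𝒮, (T a N).1 ≤ (T c N).1 ∧ (T a N).1 ≤ (T d N).1 ∧ (T b N).1 ≤ (T c N).1 ∧
      (T b N).1 ≤ (T d N).1) →
    ∑ N ∈ 𝒮, |wN o (fun j => G j (T j N)) N| ≤
      C * P * 2 ^ K * (α c * α d) *
        (2 + M ^ (p / 2 - 1) * (M * φ ^ p * (σ + σ⁻¹) +
          H' ^ (p - 2) * ((σ * Λ a + σ⁻¹ * Λ b) / 2))) := by
  classical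
  obtain ⟨C, hC, hsg⟩ := signed hq hqp hp2
  refine ⟨C, hC, ?_⟩
  intro n H P hP hroot G T o K V 𝒩 𝒮 hT hGs ho hK hbel hcl α hα hGH hloc φ H' M Λ σ hφ hH'0 hH'φ
    hM hσ hheight hen hms a b c d hab hall hac had hbc hbd hcd h𝒮 hord
  have hσi : 0 < σ⁻¹ := inv_pos.2 hσ
  have hp0 : 0 < p := hq.trans hqp
  have hTc := hT c
  have hTd := hT d
  -- the joint tops
  set J : Finset (ℕ × ℤ) := 𝒩.filter fun r => jt (T c) (T d) r = r with hJ
  have hJmem : ∀ r, r ∈ J ↔ r ∈ 𝒩 ∧ jt (T c) (T d) r = r := fun r => mem_filter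
  have hJt : ∀ N ∈ 𝒩, jt (T c) (T d) N ∈ J := fun N hN =>
    (hJmem _).2 ⟨jt_mem hTc hTd hN, jt_jt hTc hTd hN⟩
  have hprodα : ∏ j ∈ (univ.erase a).erase b, α j = α c * α d := by
    have e : (univ.erase a).erase b = ({c, d} : Finset (Fin 4)) := by
      ext j
      simp only [mem_erase, mem_univ, and_true, mem_insert, mem_singleton]
      constructor
      · rintro ⟨h1, h2⟩
        rcases hall j with h | h | h | h
        · exact absurd h h2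
        · exact absurd h h1
        · exact Or.inl h
        · exact Or.inr h
      · rintro (rfl | rfl)
        · exact ⟨hbc.symm, hac.symm⟩
        · exact ⟨hbd.symm, had.symm⟩
    rw [e, prod_pair hcd]
  have hαcd : 0 < α c * α d := mul_pos (hα c) (hα d)
  -- energies in a region
  set E : Fin 4 → ℕ × ℤ → ℝ := fun j r =>
    ∑ i ∈ (tops 𝒩 (T j)).filter (fun i => i ∈ reg 𝒩 (T c) (T d) r),
      ∑ y ∈ W i.1 i.2, |G j i y| ^ 2 with hE
  have hE0 : ∀ j r, 0 ≤ E j r := fun j r =>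
    sum_nonneg fun i _ => sum_nonneg fun y _ => sq_nonneg _
  -- one region
  have hone : ∀ r ∈ J, ∑ N ∈ 𝒮.filter (fun N => jt (T c) (T d) N = r),
      |wN o (fun j => G j (T j N)) N| ≤ C * P * 2 ^ r.1 * (α c * α d) *
        ((φ ^ p + H' ^ (p - 2) * (E a r / 2 ^ (r.1 + 5))) ^ (1 / p) *
          (φ ^ p + H' ^ (p - 2) * (E b r / 2 ^ (r.1 + 5))) ^ (1 / p)) := by
    intro r hr
    obtain ⟨hr𝒩, hrr⟩ := (hJmem r).1 hr
    set R := reg 𝒩 (T c) (T d) r with hR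
    have hRmem : ∀ N, N ∈ R ↔ N ∈ 𝒩 ∧ Bel N r ∧ T c N = T c r ∧ T d N = T d r := fun N => mem_reg
    have hrc : Bel r (T c r) := hTc.bel r hr𝒩
    have hrd : Bel r (T d r) := hTd.bel r hr𝒩
    -- membership
    have hfib : ∀ N ∈ 𝒮, jt (T c) (T d) N = r → N ∈ R := by
      intro N hN h1
      have hN' := h𝒮 hN
      refine (hRmem N).2 ⟨hN', ?_, ?_, ?_⟩
      · rw [← h1]; exact jt_bel hTc hTd hN'
      · rw [← h1]; exact (jt_left hTc hTd hN').symm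
      · rw [← h1]; exact (jt_right hTc hTd hN').symm
    have hlow : ∀ j, ∀ N ∈ 𝒮, jt (T c) (T d) N = r → (T j N).1 ≤ (T c N).1 →
        (T j N).1 ≤ (T d N).1 → T j N ∈ tops 𝒩 (T j) ∧ T j N ∈ R := by
      intro j N hN h1 h2 h3
      have hN' := h𝒮 hN
      have hb := (hT j).bel N hN'
      have hm := (hT j).mem N hN'
      refine ⟨mem_tops.2 ⟨hm, (hT j).top hN'⟩, (hRmem _).2 ⟨hm, ?_, ?_, ?_⟩⟩
      · rw [← h1]
        refine bel_of_le hb (jt_bel hTc hTd hN') ?_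
        unfold jt
        split_ifs
        · exact h2
        · exact h3
      · have h4 := hTc.conv N hN' _ hm hb (bel_of_le hb (hTc.bel N hN') h2)
        rw [h4, ← h1]
        exact (jt_left hTc hTd hN').symm
      · have h4 := hTd.conv N hN' _ hm hb (bel_of_le hb (hTd.bel N hN') h3)
        rw [h4, ← h1]
        exact (jt_right hTc hTd hN').symm
    -- the signed functions
    let ι : Type := {i : ℕ × ℤ // i ∈ 𝒩}
    let g : Fin 4 → ι → ℤ → ℝ := fun j i =>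
      if i.1 ∈ tops 𝒩 (T j) ∧ i.1 ∈ R then cut i.1 (G j i.1) else 0
    let t : Fin 4 → ℕ × ℤ → ι := fun j N => if hj : T j N ∈ 𝒩 then ⟨T j N, hj⟩ else ⟨r, hr𝒩⟩
    let f : Fin 4 → ℤ → ℝ := fun j =>
      if j = c then G c (T c r) else if j = d then G d (T d r) else 0
    have hfc : f c = G c (T c r) := by simp only [f, if_true]
    have hfd : f d = G d (T d r) := by simp only [f, if_neg hcd.symm, if_true]
    have hgs : ∀ j i, (Function.support (g j i)).Finite := by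
      intro j i
      simp only [g]
      split_ifs
      · exact cut_supp _ _
      · simp
    have hsumg : ∀ j (F : ℕ × ℤ → ℝ), (∀ i, 0 ≤ F i) →
        ∑ i : ι, (if i.1 ∈ tops 𝒩 (T j) ∧ i.1 ∈ R then F i.1 else 0) =
          ∑ i ∈ (tops 𝒩 (T j)).filter (fun i => i ∈ R), F i := by
      intro j F _
      have e1 : ∑ i : ι, (if i.1 ∈ tops 𝒩 (T j) ∧ i.1 ∈ R then F i.1 else 0) =
          ∑ i ∈ 𝒩, (if i ∈ tops 𝒩 (T j) ∧ i ∈ R then F i else 0) :=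
        sum_coe_sort 𝒩 fun i => if i ∈ tops 𝒩 (T j) ∧ i ∈ R then F i else 0
      rw [e1, ← sum_filter]
      refine sum_congr ?_ fun _ _ => rfl
      ext i
      simp only [mem_filter]
      constructor
      · rintro ⟨_, h2, h3⟩; exact ⟨h2, h3⟩
      · rintro ⟨h2, h3⟩; exact ⟨(mem_tops.1 h2).1, h2, h3⟩
    have hgH : ∀ j y, ∑ i : ι, |g j i y| ≤ H' := by
      intro j y
      have e1 : ∀ i : ι, |g j i y| =
          if i.1 ∈ tops 𝒩 (T j) ∧ i.1 ∈ R then |cut i.1 (G j i.1) y| else 0 := by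
        intro i
        simp only [g]
        split_ifs
        · rfl
        · simp
      rw [sum_congr rfl fun i _ => e1 i,
        hsumg j (fun i => |cut i (G j i) y|) fun i => abs_nonneg _]
      exact (sum_le_sum_of_subset_of_nonneg (filter_subset _ _) fun _ _ _ =>
        abs_nonneg _).trans (hheight j y)
    have hgE : ∀ j, ∑ i : ι, ∑ y ∈ W r.1 r.2, |g j i y| ^ 2 ≤
        E j r / 2 ^ (r.1 + 5) * 2 ^ (r.1 + 5) := by
      intro j
      rw [div_mul_cancel₀ _ (by positivity : (2 : ℝ) ^ (r.1 + 5) ≠ 0)]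
      have e1 : ∀ i : ι, ∑ y ∈ W r.1 r.2, |g j i y| ^ 2 ≤
          if i.1 ∈ tops 𝒩 (T j) ∧ i.1 ∈ R then ∑ y ∈ W i.1.1 i.1.2, |G j i.1 y| ^ 2 else 0 := by
        intro i
        simp only [g]
        split_ifs with h1
        · have h2 : W i.1.1 i.1.2 ⊆ W r.1 r.2 := bel_W_sub ((hRmem _).1 h1.2).2.1
          have h3 : ∑ y ∈ W r.1 r.2, |cut i.1 (G j i.1) y| ^ 2 =
              ∑ y ∈ W i.1.1 i.1.2, |cut i.1 (G j i.1) y| ^ 2 := by
            symm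
            refine sum_subset h2 fun y _ hy => ?_
            unfold cut
            rw [if_neg hy]
            norm_num
          rw [h3]
          exact sum_le_sum fun y _ => pow_le_pow_left₀ (abs_nonneg _) (abs_cut_le _ _ _) 2
        · simp
      refine (sum_le_sum fun i _ => e1 i).trans (le_of_eq ?_)
      exact hsumg j (fun i => ∑ y ∈ W i.1 i.2, |G j i y| ^ 2) fun i =>
        sum_nonneg fun _ _ => sq_nonneg _
    -- the functions at a node of the fibre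
    have hval : ∀ N ∈ 𝒮.filter (fun N => jt (T c) (T d) N = r),
        |wN o (fun j => G j (T j N)) N| =
          |wN o (Function.update (Function.update f a (g a (t a N))) b (g b (t b N))) N| := by
      intro N hN
      obtain ⟨hN1, hN2⟩ := mem_filter.1 hN
      have hN' := h𝒮 hN1
      obtain ⟨o1, o2, o3, o4⟩ := hord N hN1
      have hNR := hfib N hN1 hN2
      have key : ∀ j, (T j N).1 ≤ (T c N).1 → (T j N).1 ≤ (T d N).1 → ∀ y ∈ W N.1 N.2,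
          g j (t j N) y = G j (T j N) y := by
        intro j h1 h2 y hy
        obtain ⟨h3, h4⟩ := hlow j N hN1 hN2 h1 h2
        have e1 : t j N = ⟨T j N, (hT j).mem N hN'⟩ := by
          simp only [t]
          rw [dif_pos ((hT j).mem N hN')]
        rw [e1]
        simp only [g]
        rw [if_pos ⟨h3, h4⟩]
        exact cut_of_mem (bel_W_sub ((hT j).bel N hN') hy)
      rw [wN_congr ho]
      intro j y hy
      rcases eq_or_ne j b with rfl | hjb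
      · rw [Function.update_self]; exact (key j o3 o4 y hy).symm
      rcases eq_or_ne j a with rfl | hja
      · rw [Function.update_of_ne hjb, Function.update_self]; exact (key j o1 o2 y hy).symm
      rw [Function.update_of_ne hjb, Function.update_of_ne hja]
      rcases hall j with h | h | h | h
      · exact absurd h hja
      · exact absurd h hjb
      · subst h; rw [hfc, ((hRmem N).1 hNR).2.2.1]
      · subst h; rw [hfd, ((hRmem N).1 hNR).2.2.2]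
    rw [sum_congr rfl hval]
    have hrK : r.1 ≤ K := (hbel r hr𝒩).2.1
    have := hsg n H P hP hroot f a b (g a) (g b) (t a) (t b) o r.1 r.2 R
      (𝒮.filter fun N => jt (T c) (T d) N = r) hab
      (fun N hN => hfib N (mem_filter.1 hN).1 (mem_filter.1 hN).2)
      (by
        intro j
        simp only [f]
        split_ifs
        · exact hGs _ _
        · exact hGs _ _
        · simp) (hgs a) (hgs b) ho (hrK.trans hK)
      (fun N hN => ⟨(hbel N ((hRmem N).1 hN).1).1, ((hRmem N).1 hN).2.1.1,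
        ((hRmem N).1 hN).2.1.2⟩)
      (by
        intro N hN k' h1 h2
        obtain ⟨h3, h4, h5, h6⟩ := (hRmem N).1 hN
        have hM𝒩 : (k', N.2 / 2 ^ (k' - N.1)) ∈ 𝒩 := hcl N h3 k' h1 (h2.trans hrK)
        have hNM : Bel N (k', N.2 / 2 ^ (k' - N.1)) := ⟨h1, rfl⟩
        have hMr : Bel (k', N.2 / 2 ^ (k' - N.1)) r := bel_of_le hNM h4 h2
        refine (hRmem _).2 ⟨hM𝒩, hMr, ?_, ?_⟩
        · rw [← h5]
          refine hTc.conv N h3 _ hM𝒩 hNM ?_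
          rw [h5]
          exact bel_trans hMr hrc
        · rw [← h6]
          refine hTd.conv N h3 _ hM𝒩 hNM ?_
          rw [h6]
          exact bel_trans hMr hrd)
      α hα (by
        intro j x
        simp only [f]
        have h0 : 0 ≤ H * α j := (abs_nonneg _).trans (hGH j (0, 0) x)
        split_ifs with h1 h2
        · subst h1; exact hGH _ _ x
        · subst h2; exact hGH _ _ x
        · simpa using h0)
      (by
        intro j hja hjb N hN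
        obtain ⟨h3, h4, h5, h6⟩ := (hRmem N).1 hN
        rcases hall j with h | h | h | h
        · exact absurd h hja
        · exact absurd h hjb
        · subst h; rw [hfc, ← h5]; exact hloc j N h3
        · subst h; rw [hfd, ← h6]; exact hloc j N h3)
      φ H' (E a r / 2 ^ (r.1 + 5)) (E b r / 2 ^ (r.1 + 5)) hφ hH'0 hH'φ (hgH a) (hgH b)
      (hgE a) (hgE b)
    rwa [hprodα] at this
  -- sum over the joint tops
  have hsplit : ∑ N ∈ 𝒮, |wN o (fun j => G j (T j N)) N| =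
      ∑ r ∈ J, ∑ N ∈ 𝒮.filter (fun N => jt (T c) (T d) N = r),
        |wN o (fun j => G j (T j N)) N| :=
    (sum_fiberwise_of_maps_to (fun N hN => hJt N (h𝒮 hN)) _).symm
  rw [hsplit]
  refine (sum_le_sum hone).trans ?_
  -- measure of the joint tops
  have hJms : ∑ r ∈ J, (2 : ℝ) ^ r.1 ≤ 2 * M * 2 ^ K := by
    have h1 : J ⊆ tops 𝒩 (T c) ∪ tops 𝒩 (T d) := by
      intro r hr
      obtain ⟨h2, h3⟩ := (hJmem r).1 hr
      unfold jt at h3
      rw [mem_union]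
      split_ifs at h3
      · exact Or.inl (mem_tops.2 ⟨h2, h3⟩)
      · exact Or.inr (mem_tops.2 ⟨h2, h3⟩)
    refine (sum_le_sum_of_subset_of_nonneg h1 fun _ _ _ => by positivity).trans ?_
    have h2 := sum_union_inter (s₁ := tops 𝒩 (T c)) (s₂ := tops 𝒩 (T d))
      (f := fun r : ℕ × ℤ => (2 : ℝ) ^ r.1)
    have h3 : 0 ≤ ∑ r ∈ tops 𝒩 (T c) ∩ tops 𝒩 (T d), (2 : ℝ) ^ r.1 :=
      sum_nonneg fun _ _ => by positivity
    have h4 := hms c
    have h5 := hms d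
    linarith
  have hJE : ∀ j, ∑ r ∈ J, E j r ≤ Λ j * 2 ^ (K + 5) := by
    intro j
    refine le_trans ?_ (hen j)
    simp only [hE]
    rw [sum_sigma' J]
    have hinj : ∀ x ∈ J.sigma (fun r => (tops 𝒩 (T j)).filter fun i => i ∈ reg 𝒩 (T c) (T d) r),
        jt (T c) (T d) x.2 = x.1 := by
      intro x hx
      obtain ⟨h1, h2⟩ := mem_sigma.1 hx
      obtain ⟨_, h3⟩ := (hJmem _).1 h1
      obtain ⟨_, _, h5, h6⟩ := mem_reg.1 (mem_filter.1 h2).2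
      rw [← h3]
      unfold jt
      rw [h5, h6]
    calc ∑ x ∈ J.sigma (fun r => (tops 𝒩 (T j)).filter fun i => i ∈ reg 𝒩 (T c) (T d) r),
          ∑ y ∈ W x.2.1 x.2.2, |G j x.2 y| ^ 2
        = ∑ i ∈ (J.sigma (fun r => (tops 𝒩 (T j)).filter fun i =>
            i ∈ reg 𝒩 (T c) (T d) r)).image (fun x => x.2),
            ∑ y ∈ W i.1 i.2, |G j i y| ^ 2 := by
          rw [sum_image]
          intro x hx y hy hxy
          have h1 := hinj x hx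
          have h2 := hinj y hy
          obtain ⟨x1, x2⟩ := x
          obtain ⟨y1, y2⟩ := y
          simp only at hxy h1 h2
          subst hxy
          rw [← h1, ← h2]
      _ ≤ ∑ i ∈ tops 𝒩 (T j), ∑ y ∈ W i.1 i.2, |G j i y| ^ 2 := by
          refine sum_le_sum_of_subset_of_nonneg ?_ fun _ _ _ =>
            sum_nonneg fun _ _ => sq_nonneg _
          intro i hi
          obtain ⟨x, hx, rfl⟩ := mem_image.1 hi
          exact (mem_filter.1 (mem_sigma.1 hx).2).1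
  -- conclusion
  have hH'p : 0 ≤ H' ^ (p - 2) := Real.rpow_nonneg hH'0 _
  have hφp : 0 ≤ φ ^ p := Real.rpow_nonneg hφ.le _
  have hMp : 0 ≤ M ^ (p / 2 - 1) := Real.rpow_nonneg hM.le _
  have hterm : ∀ r ∈ J, C * P * 2 ^ r.1 * (α c * α d) *
        ((φ ^ p + H' ^ (p - 2) * (E a r / 2 ^ (r.1 + 5))) ^ (1 / p) *
          (φ ^ p + H' ^ (p - 2) * (E b r / 2 ^ (r.1 + 5))) ^ (1 / p)) ≤
      C * P * (α c * α d) * (M⁻¹ * 2 ^ r.1 + M ^ (p / 2 - 1) * (φ ^ p * (σ + σ⁻¹) / 2 * 2 ^ r.1 +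
        H' ^ (p - 2) * ((σ * E a r + σ⁻¹ * E b r) / 64))) := by
    intro r _
    have h1 := mul_rpow_le_sigma (x := φ ^ p + H' ^ (p - 2) * (E a r / 2 ^ (r.1 + 5)))
      (y := φ ^ p + H' ^ (p - 2) * (E b r / 2 ^ (r.1 + 5))) hp2
      (by have := hE0 a r; positivity) (by have := hE0 b r; positivity) hM hσ
    have h2 : (0 : ℝ) ≤ C * P * 2 ^ r.1 * (α c * α d) := by positivity
    refine (mul_le_mul_of_nonneg_left h1 h2).trans (le_of_eq ?_)
    have h3 : (2 : ℝ) ^ (r.1 + 5) = 2 ^ r.1 * 32 := by rw [pow_add]; norm_num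
    rw [h3]
    field_simp
    ring
  refine (sum_le_sum hterm).trans ?_
  rw [← mul_sum, sum_add_distrib, ← mul_sum, ← mul_sum, sum_add_distrib, ← mul_sum, ← mul_sum,
    ← sum_div, sum_add_distrib, ← mul_sum, ← mul_sum]
  have h64 : (σ * ∑ r ∈ J, E a r + σ⁻¹ * ∑ r ∈ J, E b r) / 64 ≤
      (σ * Λ a + σ⁻¹ * Λ b) / 2 * 2 ^ K := by
    have h1 := mul_le_mul_of_nonneg_left (hJE a) hσ.le
    have h2 := mul_le_mul_of_nonneg_left (hJE b) hσi.le
    have h3 : (2 : ℝ) ^ (K + 5) = 2 ^ K * 32 := by rw [pow_add]; norm_num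
    rw [h3] at h1 h2
    linarith
  have hfin : M⁻¹ * ∑ r ∈ J, (2 : ℝ) ^ r.1 + M ^ (p / 2 - 1) *
      (φ ^ p * (σ + σ⁻¹) / 2 * ∑ r ∈ J, (2 : ℝ) ^ r.1 +
      H' ^ (p - 2) * ((σ * ∑ r ∈ J, E a r + σ⁻¹ * ∑ r ∈ J, E b r) / 64)) ≤
      2 ^ K * (2 + M ^ (p / 2 - 1) * (M * φ ^ p * (σ + σ⁻¹) +
        H' ^ (p - 2) * ((σ * Λ a + σ⁻¹ * Λ b) / 2))) := by
    have h1 : M⁻¹ * ∑ r ∈ J, (2 : ℝ) ^ r.1 ≤ 2 * 2 ^ K := by
      calc M⁻¹ * ∑ r ∈ J, (2 : ℝ) ^ r.1 ≤ M⁻¹ * (2 * M * 2 ^ K) :=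
            mul_le_mul_of_nonneg_left hJms (inv_pos.2 hM).le
        _ = 2 * 2 ^ K := by field_simp
    have h2 : φ ^ p * (σ + σ⁻¹) / 2 * ∑ r ∈ J, (2 : ℝ) ^ r.1 ≤
        φ ^ p * (σ + σ⁻¹) / 2 * (2 * M * 2 ^ K) :=
      mul_le_mul_of_nonneg_left hJms (by positivity)
    have h3 := mul_le_mul_of_nonneg_left h64 hH'p
    have h4 := mul_le_mul_of_nonneg_left (add_le_add h2 h3) hMp
    calc _ ≤ 2 * 2 ^ K + M ^ (p / 2 - 1) * (φ ^ p * (σ + σ⁻¹) / 2 * (2 * M * 2 ^ K) +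
          H' ^ (p - 2) * ((σ * Λ a + σ⁻¹ * Λ b) / 2 * 2 ^ K)) := add_le_add h1 h4
      _ = _ := by ring
  have hpos : 0 ≤ C * P * (α c * α d) := by positivity
  refine (mul_le_mul_of_nonneg_left hfin hpos).trans (le_of_eq ?_)
  ring

/-- **THE MOVING BLACK BOX.** -/
theorem mbb {q p : ℝ} (hq : 0 < q) (hqp : q < p) (hp2 : 2 ≤ p) : ∃ C : ℝ, 0 < C ∧
    ∀ (n : ℕ) (H P : ℝ), 0 ≤ P → RootQ q n H P →
    ∀ (G : Fin 4 → ℕ × ℤ → ℤ → ℝ) (T : Fin 4 → ℕ × ℤ → ℕ × ℤ)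
    (o : ℤ) (K : ℕ) (V : ℤ) (𝒩 : Finset (ℕ × ℤ)), (∀ j, Win 𝒩 (T j)) →
    (∀ j i, (Function.support (G j i)).Finite) → (o = 1 ∨ o = -1) → K ≤ n →
    (∀ N ∈ 𝒩, 1 ≤ N.1 ∧ N.1 ≤ K ∧ N.2 / 2 ^ (K - N.1) = V) →
    (∀ N ∈ 𝒩, ∀ k', N.1 ≤ k' → k' ≤ K → (k', N.2 / 2 ^ (k' - N.1)) ∈ 𝒩) →
    ∀ (α : Fin 4 → ℝ) (A : ℝ), (∀ j, 0 < α j) → (∀ c d, c ≠ d → α c * α d ≤ A) →
    (∀ j i x, |G j i x| ≤ H * α j) →
    (∀ j, ∀ N ∈ 𝒩, ∑ y ∈ W N.1 N.2, |G j (T j N) y| ^ q ≤ α j ^ q * 2 ^ (N.1 + 5)) →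
    ∀ (φ H' Λ M : ℝ), 0 < φ → 0 ≤ H' → H' ≤ H * φ → 0 < M → 0 ≤ Λ →
    (∀ j y, ∑ i ∈ tops 𝒩 (T j), |cut i (G j i) y| ≤ H') →
    (∀ j, ∑ i ∈ tops 𝒩 (T j), ∑ y ∈ W i.1 i.2, |G j i y| ^ 2 ≤ Λ * 2 ^ (K + 5)) →
    (∀ j, ∑ i ∈ tops 𝒩 (T j), (2 : ℝ) ^ i.1 ≤ M * 2 ^ K) →
    ∑ N ∈ 𝒩, |wN o (fun j => G j (T j N)) N| ≤
      C * P * 2 ^ K * A * (2 + M ^ (p / 2 - 1) * (2 * M * φ ^ p + H' ^ (p - 2) * Λ)) := by
  classical
  obtain ⟨C, hC, hord⟩ := mbb_order hq hqp hp2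
  refine ⟨24 * C, by positivity, ?_⟩
  intro n H P hP hroot G T o K V 𝒩 hT hGs ho hK hbel hcl α A hα hA hGH hloc φ H' Λ M hφ hH'0 hH'φ
    hM hΛ hheight hen hms
  have hA0 : 0 ≤ A := (mul_pos (hα 0) (hα 1)).le.trans (hA 0 1 (by decide))
  set X : ℝ := 2 + M ^ (p / 2 - 1) * (2 * M * φ ^ p + H' ^ (p - 2) * Λ) with hX
  have hX0 : 0 ≤ X := by
    have h1 : 0 ≤ M ^ (p / 2 - 1) := Real.rpow_nonneg hM.le _
    have h2 : 0 ≤ φ ^ p := Real.rpow_nonneg hφ.le _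
    have h3 : 0 ≤ H' ^ (p - 2) := Real.rpow_nonneg hH'0 _
    positivity
  -- the orders
  set S : Equiv.Perm (Fin 4) → Finset (ℕ × ℤ) := fun σ => 𝒩.filter fun N =>
    (T (σ 0) N).1 ≤ (T (σ 2) N).1 ∧ (T (σ 0) N).1 ≤ (T (σ 3) N).1 ∧
      (T (σ 1) N).1 ≤ (T (σ 2) N).1 ∧ (T (σ 1) N).1 ≤ (T (σ 3) N).1 with hS
  have hcov : ∀ N ∈ 𝒩, ∃ σ, N ∈ S σ := by
    intro N hN
    refine ⟨Tuple.sort fun j => (T j N).1, ?_⟩
    have h := Tuple.monotone_sort fun j => (T j N).1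
    simp only [hS]
    rw [mem_filter]
    exact ⟨hN, h (by decide : (0 : Fin 4) ≤ 2), h (by decide : (0 : Fin 4) ≤ 3),
      h (by decide : (1 : Fin 4) ≤ 2), h (by decide : (1 : Fin 4) ≤ 3)⟩
  have h1 : ∑ N ∈ 𝒩, |wN o (fun j => G j (T j N)) N| ≤
      ∑ σ : Equiv.Perm (Fin 4), ∑ N ∈ S σ, |wN o (fun j => G j (T j N)) N| := by
    have h2 : ∀ N ∈ 𝒩, |wN o (fun j => G j (T j N)) N| ≤
        ∑ σ : Equiv.Perm (Fin 4), if N ∈ S σ then |wN o (fun j => G j (T j N)) N| else 0 := by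
      intro N hN
      obtain ⟨σ, hσ⟩ := hcov N hN
      refine le_trans (le_of_eq ?_) (single_le_sum (f := fun σ : Equiv.Perm (Fin 4) =>
        if N ∈ S σ then |wN o (fun j => G j (T j N)) N| else 0)
        (fun σ _ => by split_ifs <;> simp) (mem_univ σ))
      rw [if_pos hσ]
    refine (sum_le_sum h2).trans (le_of_eq ?_)
    rw [sum_comm]
    refine sum_congr rfl fun σ _ => ?_
    rw [← sum_filter]
    refine sum_congr ?_ fun _ _ => rfl
    ext N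
    simp only [mem_filter, hS]
    constructor
    · rintro ⟨_, h⟩; exact h
    · intro h; exact ⟨h.1, h⟩
  refine h1.trans ?_
  have h3 : ∀ σ : Equiv.Perm (Fin 4), ∑ N ∈ S σ, |wN o (fun j => G j (T j N)) N| ≤
      C * P * 2 ^ K * A * X := by
    intro σ
    have hne : ∀ i j : Fin 4, i ≠ j → σ i ≠ σ j := fun i j h h' => h (σ.injective h')
    have h4 := hord n H P hP hroot G T o K V 𝒩 (S σ) hT hGs ho hK hbel hcl α hα hGH hloc φ H' M
      (fun _ => Λ) 1 hφ hH'0 hH'φ hM one_pos hheight hen hms (σ 0) (σ 1) (σ 2) (σ 3)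
      (hne _ _ (by decide)) (by
        intro j
        obtain ⟨i, rfl⟩ := σ.surjective j
        fin_cases i <;> simp) (hne _ _ (by decide)) (hne _ _ (by decide)) (hne _ _ (by decide))
      (hne _ _ (by decide)) (hne _ _ (by decide)) (filter_subset _ _)
      (fun N hN => (mem_filter.1 hN).2)
    have h5 : (2 + M ^ (p / 2 - 1) * (M * φ ^ p * (1 + 1⁻¹) +
        H' ^ (p - 2) * ((1 * Λ + 1⁻¹ * Λ) / 2))) = X := by
      rw [hX]; ring
    rw [h5] at h4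
    refine h4.trans ?_
    refine mul_le_mul_of_nonneg_right ?_ hX0
    exact mul_le_mul_of_nonneg_left (hA _ _ (hne _ _ (by decide))) (by positivity)
  refine (sum_le_sum fun σ _ => h3 σ).trans (le_of_eq ?_)
  rw [sum_const, card_univ, Fintype.card_perm, Fintype.card_fin, nsmul_eq_mul]
  simp only [Nat.factorial]
  push_cast
  ring

end Vale.Agent.P141.H845
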