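import Vale.Agent.P141.H845.Layer

/-!
# P141, line W: the moving black box with packing below every node

`mbbK`: no bound on the number of windows above a point, no logarithm, relative heights only.
-/

namespace Vale.Agent.P141.H845

open Finset Vale.Agent.P141.PL.H855
open Vale.Agent.P141.PL.H571 (W mem_W)

/-- the roots of a family of nodes -/
noncomputable def rts (R : Finset (ℕ × ℤ)) : Finset (ℕ × ℤ) := by
  classical exact R.filter fun r => ∀ M ∈ R, Bel r M → M = r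

theorem mem_rts {R : Finset (ℕ × ℤ)} {r : ℕ × ℤ} :
    r ∈ rts R ↔ r ∈ R ∧ ∀ M ∈ R, Bel r M → M = r := by
  classical
  unfold rts; rw [mem_filter]

theorem exists_rt {R : Finset (ℕ × ℤ)} {N : ℕ × ℤ} (hN : N ∈ R) : ∃ r ∈ rts R, Bel N r := by
  classical
  obtain ⟨r, hr, hmax⟩ := (R.filter fun M => Bel N M).exists_max_image (fun M => M.1)
    ⟨N, mem_filter.2 ⟨hN, bel_refl N⟩⟩
  obtain ⟨hr1, hr2⟩ := mem_filter.1 hr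
  refine ⟨r, mem_rts.2 ⟨hr1, fun M hM hrM => ?_⟩, hr2⟩
  have h1 := hmax M (mem_filter.2 ⟨hM, bel_trans hr2 hrM⟩)
  exact (bel_eq (bel_refl r) hrM (le_antisymm hrM.1 h1)).symm

theorem rts_dis {R : Finset (ℕ × ℤ)} : ∀ N ∈ rts R, ∀ M ∈ rts R, Bel N M → N = M :=
  fun _ hN M hM h => ((mem_rts.1 hN).2 M (mem_rts.1 hM).1 h).symm

/-- the layer of the number of near tops -/
noncomputable def lay (𝒩 : Finset (ℕ × ℤ)) (T : Fin 4 → ℕ × ℤ → ℕ × ℤ) (Z : ℝ) (l : ℕ) :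
    Finset (ℕ × ℤ) := by
  classical exact 𝒩.filter fun N => (l = 0 ∨ Z * 2 ^ l ≤ gen 𝒩 T N) ∧
    (gen 𝒩 T N : ℝ) < Z * 2 ^ (l + 1)

theorem mem_lay {𝒩 : Finset (ℕ × ℤ)} {T : Fin 4 → ℕ × ℤ → ℕ × ℤ} {Z : ℝ} {l : ℕ} {N : ℕ × ℤ} :
    N ∈ lay 𝒩 T Z l ↔ N ∈ 𝒩 ∧ (l = 0 ∨ Z * 2 ^ l ≤ gen 𝒩 T N) ∧
      (gen 𝒩 T N : ℝ) < Z * 2 ^ (l + 1) := by
  classical
  unfold lay; rw [mem_filter]

/-- a layer is convex -/
theorem lay_conv {𝒩 : Finset (ℕ × ℤ)} {T : Fin 4 → ℕ × ℤ → ℕ × ℤ} {Z : ℝ} {l : ℕ}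
    {N M r : ℕ × ℤ} (hN : N ∈ lay 𝒩 T Z l) (hr : r ∈ lay 𝒩 T Z l) (hM : M ∈ 𝒩) (h : Bel N M)
    (h' : Bel M r) : M ∈ lay 𝒩 T Z l := by
  rw [mem_lay] at *
  have h1 : (gen 𝒩 T M : ℝ) ≤ gen 𝒩 T N := by exact_mod_cast gen_mono h
  have h2 : (gen 𝒩 T r : ℝ) ≤ gen 𝒩 T M := by exact_mod_cast gen_mono h'
  refine ⟨hM, ?_, h1.trans_lt hN.2.2⟩
  rcases hr.2.1 with h3 | h3
  · exact Or.inl h3
  · exact Or.inr (h3.trans h2)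

/-- cover by the layers -/
theorem lay_cover {𝒩 : Finset (ℕ × ℤ)} {T : Fin 4 → ℕ × ℤ → ℕ × ℤ} {Z : ℝ} (hZ : 1 ≤ Z) :
    ∃ n0 : ℕ, ∀ N ∈ 𝒩, ∃ l ∈ range n0, N ∈ lay 𝒩 T Z l := by
  classical
  refine ⟨∑ N ∈ 𝒩, gen 𝒩 T N + 1, fun N hN => ?_⟩
  have hg : gen 𝒩 T N ≤ ∑ N ∈ 𝒩, gen 𝒩 T N :=
    single_le_sum (f := fun N => gen 𝒩 T N) (fun _ _ => Nat.zero_le _) hN
  have hex : ∃ l : ℕ, (gen 𝒩 T N : ℝ) < Z * 2 ^ (l + 1) := by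
    refine ⟨gen 𝒩 T N, ?_⟩
    have h1 : (gen 𝒩 T N : ℝ) < 2 ^ (gen 𝒩 T N) := by exact_mod_cast Nat.lt_two_pow_self
    have h2 : (2 : ℝ) ^ (gen 𝒩 T N) ≤ 2 ^ (gen 𝒩 T N + 1) :=
      pow_le_pow_right₀ (by norm_num) (Nat.le_succ _)
    have h3 : (2 : ℝ) ^ (gen 𝒩 T N + 1) ≤ Z * 2 ^ (gen 𝒩 T N + 1) :=
      le_mul_of_one_le_left (by positivity) hZ
    linarith
  set l := Nat.find hex with hl
  have hl1 : (gen 𝒩 T N : ℝ) < Z * 2 ^ (l + 1) := Nat.find_spec hex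
  have hl2 : l ≤ gen 𝒩 T N := by
    refine Nat.find_min' hex ?_
    have h1 : (gen 𝒩 T N : ℝ) < 2 ^ (gen 𝒩 T N) := by exact_mod_cast Nat.lt_two_pow_self
    have h2 : (2 : ℝ) ^ (gen 𝒩 T N) ≤ 2 ^ (gen 𝒩 T N + 1) :=
      pow_le_pow_right₀ (by norm_num) (Nat.le_succ _)
    have h3 : (2 : ℝ) ^ (gen 𝒩 T N + 1) ≤ Z * 2 ^ (gen 𝒩 T N + 1) :=
      le_mul_of_one_le_left (by positivity) hZ
    linarith
  refine ⟨l, mem_range.2 (by omega), mem_lay.2 ⟨hN, ?_, hl1⟩⟩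
  rcases Nat.eq_zero_or_pos l with h | h
  · exact Or.inl h
  · right
    have h1 := Nat.find_min hex (m := l - 1) (by omega)
    push Not at h1
    rwa [show l - 1 + 1 = l by omega] at h1

/-- **measure of the roots of a layer** -/
theorem sum_rts_le {𝒩 : Finset (ℕ × ℤ)} {T : Fin 4 → ℕ × ℤ → ℕ × ℤ} {Z : ℝ} (hZ : 0 < Z)
    {K : ℕ} {V : ℤ} (hbel : ∀ N ∈ 𝒩, Bel N (K, V))
    (hpack : ∑ j, ∑ i ∈ tops 𝒩 (T j), (2 : ℝ) ^ i.1 ≤ Z * 2 ^ K) (l : ℕ) :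
    ∑ r ∈ rts (lay 𝒩 T Z l), (2 : ℝ) ^ r.1 ≤ 67 * 2 ^ K / 2 ^ l := by
  rw [le_div_iff₀ (by positivity)]
  rcases Nat.eq_zero_or_pos l with h | h
  · subst h
    have h1 := sum_disj_le (𝒟 := rts (lay 𝒩 T Z 0)) (Q := (K, V)) rts_dis
      fun N hN => hbel N (mem_lay.1 (mem_rts.1 hN).1).1
    simp only at h1
    have h2 : (0 : ℝ) < 2 ^ K := by positivity
    rw [pow_zero, mul_one]
    linarith
  · have h1 := sum_gen_le (𝒩 := 𝒩) (T := T) (𝒟 := rts (lay 𝒩 T Z l)) rts_dis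
    have h2 : ∑ r ∈ rts (lay 𝒩 T Z l), (2 : ℝ) ^ r.1 * (Z * 2 ^ l) ≤
        ∑ N ∈ rts (lay 𝒩 T Z l), (2 : ℝ) ^ N.1 * gen 𝒩 T N := by
      refine sum_le_sum fun r hr => ?_
      rcases (mem_lay.1 (mem_rts.1 hr).1).2.1 with h3 | h3
      · omega
      · exact mul_le_mul_of_nonneg_left h3 (by positivity)
    rw [← sum_mul] at h2
    have h3 : (∑ r ∈ rts (lay 𝒩 T Z l), (2 : ℝ) ^ r.1) * 2 ^ l * Z ≤ 67 * 2 ^ K * Z := by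
      calc _ = (∑ r ∈ rts (lay 𝒩 T Z l), (2 : ℝ) ^ r.1) * (Z * 2 ^ l) := by ring
        _ ≤ 67 * ∑ j, ∑ i ∈ tops 𝒩 (T j), (2 : ℝ) ^ i.1 := h2.trans h1
        _ ≤ 67 * (Z * 2 ^ K) := mul_le_mul_of_nonneg_left hpack (by norm_num)
        _ = _ := by ring
    exact le_of_mul_le_mul_right h3 hZ

/-! ### one region of a layer -/

section Region

variable {𝒩 : Finset (ℕ × ℤ)} {T : Fin 4 → ℕ × ℤ → ℕ × ℤ} (hT : ∀ j, Win 𝒩 (T j)) {Z : ℝ} {l : ℕ}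
  {r : ℕ × ℤ}

/-- the region -/
noncomputable def rgn (𝒩 : Finset (ℕ × ℤ)) (T : Fin 4 → ℕ × ℤ → ℕ × ℤ) (Z : ℝ) (l : ℕ)
    (r : ℕ × ℤ) : Finset (ℕ × ℤ) := by
  classical exact (lay 𝒩 T Z l).filter fun N => Bel N r

theorem mem_rgn {N : ℕ × ℤ} : N ∈ rgn 𝒩 T Z l r ↔ N ∈ lay 𝒩 T Z l ∧ Bel N r := by
  classical
  unfold rgn; rw [mem_filter]

/-- the tops cut at the root of the region -/
noncomputable def Tr (T : ℕ × ℤ → ℕ × ℤ) (r : ℕ × ℤ) (N : ℕ × ℤ) : ℕ × ℤ :=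
  if (T N).1 ≤ r.1 then T N else r

include hT

theorem win_rgn (hr : r ∈ lay 𝒩 T Z l) (j : Fin 4) : Win (rgn 𝒩 T Z l r) (Tr (T j) r) := by
  have hr𝒩 := (mem_lay.1 hr).1
  refine ⟨fun N hN => ?_, fun N hN => ?_, fun N hN M hM hNM hMT => ?_⟩
  · obtain ⟨h1, h2⟩ := mem_rgn.1 hN
    have hN𝒩 := (mem_lay.1 h1).1
    unfold Tr
    split_ifs with h3
    · have h4 := (hT j).bel N hN𝒩
      have h5 := bel_of_le h4 h2 h3
      exact mem_rgn.2 ⟨lay_conv h1 hr ((hT j).mem N hN𝒩) h4 h5, h5⟩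
    · exact mem_rgn.2 ⟨hr, bel_refl r⟩
  · obtain ⟨h1, h2⟩ := mem_rgn.1 hN
    unfold Tr
    split_ifs with h3
    · exact (hT j).bel N (mem_lay.1 h1).1
    · exact h2
  · obtain ⟨h1, h2⟩ := mem_rgn.1 hN
    obtain ⟨h3, h4⟩ := mem_rgn.1 hM
    have hN𝒩 := (mem_lay.1 h1).1
    have hM𝒩 := (mem_lay.1 h3).1
    unfold Tr at hMT ⊢
    have h6 : T j M = T j N := by
      refine (hT j).conv N hN𝒩 M hM𝒩 hNM ?_
      split_ifs at hMT with h5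
      · exact hMT
      · exact bel_trans hMT (bel_of_le h2 ((hT j).bel N hN𝒩) (not_le.1 h5).le)
    rw [h6]

theorem val_rgn (hr : r ∈ lay 𝒩 T Z l) (j : Fin 4) {N : ℕ × ℤ} (hN : N ∈ rgn 𝒩 T Z l r) :
    T j (Tr (T j) r N) = T j N := by
  obtain ⟨h1, h2⟩ := mem_rgn.1 hN
  have hN𝒩 := (mem_lay.1 h1).1
  have hr𝒩 := (mem_lay.1 hr).1
  unfold Tr
  split_ifs with h3
  · exact (hT j).top hN𝒩
  · exact (hT j).conv N hN𝒩 r hr𝒩 h2 (bel_of_le h2 ((hT j).bel N hN𝒩) (not_le.1 h3).le)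

omit hT in
theorem tops_rgn (j : Fin 4) {i : ℕ × ℤ}
    (hi : i ∈ tops (rgn 𝒩 T Z l r) (Tr (T j) r)) :
    i ∈ rgn 𝒩 T Z l r ∧ (i ∈ tops 𝒩 (T j) ∨ i = r) := by
  obtain ⟨h1, h2⟩ := mem_tops.1 hi
  refine ⟨h1, ?_⟩
  unfold Tr at h2
  split_ifs at h2 with h3
  · exact Or.inl (mem_tops.2 ⟨(mem_lay.1 (mem_rgn.1 h1).1).1, h2⟩)
  · exact Or.inr h2.symm

omit hT in
open scoped Classical in
/-- packing in the region -/
theorem pack_rgn (j : Fin 4) {κ : ℝ} (hκ : 1 ≤ κ)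
    (hp : ∑ i ∈ tops 𝒩 (T j) with Bel i r, (2 : ℝ) ^ i.1 ≤ κ * 2 ^ r.1) :
    ∑ i ∈ tops (rgn 𝒩 T Z l r) (Tr (T j) r), (2 : ℝ) ^ i.1 ≤ 2 * κ * 2 ^ r.1 := by
  have h1 : tops (rgn 𝒩 T Z l r) (Tr (T j) r) ⊆
      ((tops 𝒩 (T j)).filter fun i => Bel i r) ∪ {r} := by
    intro i hi
    obtain ⟨h2, h3⟩ := tops_rgn j hi
    rw [mem_union, mem_filter, mem_singleton]
    rcases h3 with h3 | h3
    · exact Or.inl ⟨h3, (mem_rgn.1 h2).2⟩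
    · exact Or.inr h3
  refine (sum_le_sum_of_subset_of_nonneg h1 fun _ _ _ => by positivity).trans ?_
  have h2 := sum_union_inter (s₁ := (tops 𝒩 (T j)).filter fun i => Bel i r) (s₂ := {r})
    (f := fun i : ℕ × ℤ => (2 : ℝ) ^ i.1)
  have h3 : 0 ≤ ∑ i ∈ ((tops 𝒩 (T j)).filter fun i => Bel i r) ∩ {r}, (2 : ℝ) ^ i.1 :=
    sum_nonneg fun _ _ => by positivity
  rw [sum_singleton] at h2
  have h4 : (2 : ℝ) ^ r.1 ≤ κ * 2 ^ r.1 := le_mul_of_one_le_left (by positivity) hκ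
  linarith

omit hT in
/-- heights in the region -/
theorem height_rgn (j : Fin 4) {L : ℝ} (hL : 0 ≤ L) (hZ : 1 ≤ Z) {G : ℕ × ℤ → ℤ → ℝ}
    (hG : ∀ i x, |G i x| ≤ L) (y : ℤ) :
    ∑ i ∈ tops (rgn 𝒩 T Z l r) (Tr (T j) r), |cut i (G i) y| ≤ L * (Z * 2 ^ (l + 2)) := by
  classical
  set 𝒯 := (tops (rgn 𝒩 T Z l r) (Tr (T j) r)).filter fun i => y ∈ W i.1 i.2 with h𝒯
  have h1 : ∑ i ∈ tops (rgn 𝒩 T Z l r) (Tr (T j) r), |cut i (G i) y| ≤ L * #𝒯 := by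
    have h2 : ∀ i ∈ tops (rgn 𝒩 T Z l r) (Tr (T j) r), |cut i (G i) y| ≤
        if y ∈ W i.1 i.2 then L else 0 := by
      intro i _
      unfold cut
      split_ifs
      · exact hG i y
      · simp
    refine (sum_le_sum h2).trans (le_of_eq ?_)
    rw [← sum_filter, sum_const, nsmul_eq_mul, mul_comm]
  refine h1.trans (mul_le_mul_of_nonneg_left ?_ hL)
  rcases 𝒯.eq_empty_or_nonempty with he | hne
  · rw [he, card_empty, Nat.cast_zero]; positivity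
  obtain ⟨i0, hi0, hmin⟩ := 𝒯.exists_min_image (fun i => i.1) hne
  obtain ⟨hi1, hi2⟩ := mem_filter.1 hi0
  obtain ⟨hi3, _⟩ := tops_rgn j hi1
  have hi4 := (mem_lay.1 (mem_rgn.1 hi3).1).2.2
  have h3 : 𝒯 ⊆ ((tops 𝒩 (T j)).filter fun i => Nr i0 i) ∪ {r} := by
    intro i hi
    obtain ⟨h4, h5⟩ := mem_filter.1 hi
    obtain ⟨h6, h7⟩ := tops_rgn j h4
    rw [mem_union, mem_filter, mem_singleton]
    rcases h7 with h7 | h7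
    · exact Or.inl ⟨h7, nr_of_mem (hmin i hi) hi2 h5⟩
    · exact Or.inr h7
  have h4 : #𝒯 ≤ gen 𝒩 T i0 + 1 := by
    refine (card_le_card h3).trans ((card_union_le _ _).trans ?_)
    rw [card_singleton]
    exact Nat.add_le_add_right (card_le_gen j i0) 1
  have h5 : (#𝒯 : ℝ) ≤ gen 𝒩 T i0 + 1 := by exact_mod_cast h4
  have h6 : (1 : ℝ) ≤ Z * 2 ^ (l + 1) :=
    one_le_mul_of_one_le_of_one_le hZ (one_le_pow₀ (by norm_num))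
  calc (#𝒯 : ℝ) ≤ Z * 2 ^ (l + 1) + Z * 2 ^ (l + 1) := by linarith
    _ = Z * 2 ^ (l + 2) := by rw [pow_succ 2 (l + 1)]; ring

end Region

open scoped Classical in
/-- **one region** -/
theorem mbb_region {q : ℝ} (hq : 2 < q) : ∃ C : ℝ, 0 < C ∧
    ∀ (n : ℕ) (γ P : ℝ), 0 ≤ γ → 0 ≤ P → (∀ H' : ℝ, 1 ≤ H' → RootQ q n H' (P * H' ^ γ)) →
    ∀ (G : Fin 4 → ℕ × ℤ → ℤ → ℝ) (T : Fin 4 → ℕ × ℤ → ℕ × ℤ)
    (o : ℤ) (K : ℕ) (V : ℤ) (𝒩 : Finset (ℕ × ℤ)), (∀ j, Win 𝒩 (T j)) →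
    (∀ j i, (Function.support (G j i)).Finite) → (o = 1 ∨ o = -1) → K ≤ n →
    (∀ N ∈ 𝒩, 1 ≤ N.1 ∧ N.1 ≤ K ∧ N.2 / 2 ^ (K - N.1) = V) →
    (∀ N ∈ 𝒩, ∀ k', N.1 ≤ k' → k' ≤ K → (k', N.2 / 2 ^ (k' - N.1)) ∈ 𝒩) →
    ∀ (L M : ℝ) (κ : Fin 4 → ℝ), 1 ≤ L → 1 ≤ M → (∀ j, 1 ≤ κ j) → (∀ j, κ j ≤ M) →
    (∀ j i x, |G j i x| ≤ L) →
    (∀ j, ∀ N ∈ 𝒩, ∑ y ∈ W N.1 N.2, |G j (T j N) y| ^ 2 ≤ 2 ^ (N.1 + 5)) →
    (∀ j, ∀ Q ∈ 𝒩, ∑ i ∈ tops 𝒩 (T j) with Bel i Q, (2 : ℝ) ^ i.1 ≤ κ j * 2 ^ Q.1) →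
    ∀ R : ℝ, (∀ a b, a ≠ b → κ a * κ b ≤ R ^ 2) → 0 ≤ R →
    ∀ (Z : ℝ) (l : ℕ), 1 ≤ Z → ∀ r ∈ lay 𝒩 T Z l,
    ∑ N ∈ rgn 𝒩 T Z l r, |wN o (fun j => G j (T j N)) N| ≤
      C * P * 2 ^ r.1 * R * (8 * L * M * Z * 2 ^ l) ^ (γ + 3 * (q - 2)) := by
  obtain ⟨C, hC, h1⟩ := mbb_one hq
  refine ⟨2 * C, by positivity, ?_⟩
  intro n γ P hγ hP hroot G T o K V 𝒩 hT hGs ho hK hbel hcl L M κ hL hM hκ hκM hGL hloc hpack R hR hR0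
    Z l hZ r hr
  obtain ⟨hr1, hr2, hr3⟩ := mem_lay.1 hr
  have hL0 : 0 < L := by linarith
  have hwin := win_rgn hT hr
  have hZl : 1 ≤ Z * 2 ^ (l + 2) :=
    one_le_mul_of_one_le_of_one_le hZ (one_le_pow₀ (by norm_num))
  have hLL : L ≤ L * (Z * 2 ^ (l + 2)) := le_mul_of_one_le_right hL0.le hZl
  have h2 := h1 n γ P hγ hP hroot (fun j i => G j (T j i)) (fun j => Tr (T j) r) o r.1 r.2
    (rgn 𝒩 T Z l r) hwin (fun j i => hGs _ _) ho ((hbel r hr1).2.1.trans hK)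
    (fun N hN => by
      obtain ⟨h3, h4⟩ := mem_rgn.1 hN
      exact ⟨(hbel N (mem_lay.1 h3).1).1, h4.1, h4.2⟩)
    (fun N hN k' h3 h4 => by
      obtain ⟨h5, h6⟩ := mem_rgn.1 hN
      have h7 : Bel N (k', N.2 / 2 ^ (k' - N.1)) := ⟨h3, rfl⟩
      have h8 : Bel (k', N.2 / 2 ^ (k' - N.1)) r := bel_of_le h7 h6 h4
      exact mem_rgn.2 ⟨lay_conv h5 hr (hcl N (mem_lay.1 h5).1 k' h3
        (h4.trans (hbel r hr1).2.1)) h7 h8, h8⟩)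
    (L * (Z * 2 ^ (l + 2))) (2 * M) (fun j => 2 * κ j) (hL.trans hLL) (by linarith)
    (fun j => by linarith [hκ j]) (fun j => by linarith [hκM j])
    (fun j i x => (hGL _ _ _).trans hLL)
    (fun j N hN => by
      rw [val_rgn hT hr j hN]
      exact hloc j N (mem_lay.1 (mem_rgn.1 hN).1).1)
    (fun j y => height_rgn j hL0.le hZ (fun i x => hGL _ _ _) y)
    (fun j => pack_rgn j (hκ j) (hpack j r hr1))
    (2 * R) (fun a b hab => by have := hR a b hab; nlinarith) (by linarith)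
  have e1 : ∑ N ∈ rgn 𝒩 T Z l r, |wN o (fun j => G j (T j N)) N| =
      ∑ N ∈ rgn 𝒩 T Z l r, |wN o (fun j => G j (T j (Tr (T j) r N))) N| := by
    refine sum_congr rfl fun N hN => ?_
    congr 2
    funext j
    rw [val_rgn hT hr j hN]
  rw [e1]
  refine h2.trans (le_of_eq ?_)
  rw [show L * (Z * 2 ^ (l + 2)) * (2 * M) = 8 * L * M * Z * 2 ^ l by rw [pow_add]; ring]
  ring

/-- the sum over the layers -/
theorem sum_layers {s Y : ℝ} (hs : s ≤ 1 / 2) (hY : 0 ≤ Y) (n0 : ℕ) :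
    ∑ l ∈ range n0, (Y * 2 ^ l) ^ s / 2 ^ l ≤ 4 * Y ^ s := by
  have h1 : ∀ l ∈ range n0, (Y * 2 ^ l) ^ s / 2 ^ l ≤ Y ^ s * (3 / 4) ^ l := by
    intro l _
    rw [Real.mul_rpow hY (by positivity), mul_div_assoc]
    refine mul_le_mul_of_nonneg_left ?_ (Real.rpow_nonneg hY _)
    rw [div_le_iff₀ (by positivity)]
    have h2 : ((2 : ℝ) ^ l) ^ s = ((2 : ℝ) ^ s) ^ l := by
      rw [← Real.rpow_natCast, ← Real.rpow_natCast, ← Real.rpow_mul (by norm_num),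
        ← Real.rpow_mul (by norm_num), mul_comm]
    have h3 : (2 : ℝ) ^ s ≤ 3 / 2 := by
      have h4 : (2 : ℝ) ^ s ≤ 2 ^ (1 / 2 : ℝ) :=
        Real.rpow_le_rpow_of_exponent_le (by norm_num) hs
      have h5 : (2 : ℝ) ^ (1 / 2 : ℝ) ≤ 3 / 2 := by
        rw [← Real.sqrt_eq_rpow]
        exact Real.sqrt_le_iff.2 ⟨by norm_num, by norm_num⟩
      exact h4.trans h5
    rw [h2]
    calc ((2 : ℝ) ^ s) ^ l ≤ (3 / 2) ^ l := pow_le_pow_left₀ (by positivity) h3 l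
      _ = (3 / 4) ^ l * 2 ^ l := by rw [← mul_pow]; norm_num
  refine (sum_le_sum h1).trans ?_
  rw [← mul_sum, mul_comm]
  refine mul_le_mul_of_nonneg_right ?_ (Real.rpow_nonneg hY _)
  have h2 : (1 - 3 / 4 : ℝ) * ∑ i ∈ range n0, (3 / 4 : ℝ) ^ i ≤ 1 := by
    have h3 := mul_neg_geom_sum (3 / 4 : ℝ) n0
    rw [h3]
    have : (0 : ℝ) ≤ (3 / 4) ^ n0 := by positivity
    linarith
  linarith

open scoped Classical in
/-- **THE MOVING BLACK BOX, normalised slots.** -/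
theorem mbbK_one {q : ℝ} (hq : 2 < q) : ∃ C : ℝ, 0 < C ∧
    ∀ (n : ℕ) (γ P : ℝ), 0 ≤ γ → γ + 3 * (q - 2) ≤ 1 / 2 → 0 ≤ P →
    (∀ H' : ℝ, 1 ≤ H' → RootQ q n H' (P * H' ^ γ)) →
    ∀ (G : Fin 4 → ℕ × ℤ → ℤ → ℝ) (T : Fin 4 → ℕ × ℤ → ℕ × ℤ)
    (o : ℤ) (K : ℕ) (V : ℤ) (𝒩 : Finset (ℕ × ℤ)), (∀ j, Win 𝒩 (T j)) →
    (∀ j i, (Function.support (G j i)).Finite) → (o = 1 ∨ o = -1) → K ≤ n →
    (∀ N ∈ 𝒩, 1 ≤ N.1 ∧ N.1 ≤ K ∧ N.2 / 2 ^ (K - N.1) = V) →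
    (∀ N ∈ 𝒩, ∀ k', N.1 ≤ k' → k' ≤ K → (k', N.2 / 2 ^ (k' - N.1)) ∈ 𝒩) →
    ∀ (L M : ℝ) (κ : Fin 4 → ℝ), 1 ≤ L → 1 ≤ M → (∀ j, 1 ≤ κ j) → (∀ j, κ j ≤ M) →
    (∀ j i x, |G j i x| ≤ L) →
    (∀ j, ∀ N ∈ 𝒩, ∑ y ∈ W N.1 N.2, |G j (T j N) y| ^ 2 ≤ 2 ^ (N.1 + 5)) →
    (∀ j, ∀ Q ∈ 𝒩, ∑ i ∈ tops 𝒩 (T j) with Bel i Q, (2 : ℝ) ^ i.1 ≤ κ j * 2 ^ Q.1) →
    ∀ R : ℝ, (∀ a b, a ≠ b → κ a * κ b ≤ R ^ 2) → 0 ≤ R →
    ∑ N ∈ 𝒩, |wN o (fun j => G j (T j N)) N| ≤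
      C * P * 2 ^ K * R * (L * M ^ 2) ^ (γ + 3 * (q - 2)) := by
  obtain ⟨C, hC, hreg⟩ := mbb_region hq
  refine ⟨C * 67 * 4 * 6, by positivity, ?_⟩
  intro n γ P hγ hs hP hroot G T o K V 𝒩 hT hGs ho hK hbel hcl L M κ hL hM hκ hκM hGL hloc hpack R hR
    hR0
  set s := γ + 3 * (q - 2) with hsdef
  have hs0 : 0 ≤ s := by rw [hsdef]; linarith
  have hL0 : 0 < L := by linarith
  have hM0 : 0 < M := by linarith
  rcases 𝒩.eq_empty_or_nonempty with he | ⟨N0, hN0⟩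
  · rw [he, sum_empty]; positivity
  have hbel' : ∀ N ∈ 𝒩, Bel N (K, V) := fun N hN => ⟨(hbel N hN).2.1, (hbel N hN).2.2⟩
  have hroot𝒩 : (K, V) ∈ 𝒩 := by
    obtain ⟨h1, h2, h3⟩ := hbel N0 hN0
    have := hcl N0 hN0 K h2 le_rfl
    rwa [h3] at this
  set Z : ℝ := ∑ j, κ j with hZ
  have hZ1 : 1 ≤ Z := by
    rw [hZ]
    exact (hκ 0).trans (single_le_sum (f := κ) (fun j _ => by linarith [hκ j]) (mem_univ 0))
  have hZL : Z ≤ 4 * M := by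
    rw [hZ]
    refine (sum_le_card_nsmul univ κ M fun j _ => hκM j).trans (le_of_eq ?_)
    rw [card_univ, Fintype.card_fin, nsmul_eq_mul]
    norm_num
  obtain ⟨n0, hn0⟩ := lay_cover (𝒩 := 𝒩) (T := T) hZ1
  have hpackroot : ∑ j, ∑ i ∈ tops 𝒩 (T j), (2 : ℝ) ^ i.1 ≤ Z * 2 ^ K := by
    rw [hZ, sum_mul]
    refine sum_le_sum fun j _ => ?_
    have h1 := hpack j (K, V) hroot𝒩
    rwa [filter_true_of_mem fun i hi => hbel' i (mem_tops.1 hi).1] at h1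
  -- the layers
  have h1 : ∑ N ∈ 𝒩, |wN o (fun j => G j (T j N)) N| ≤
      ∑ l ∈ range n0, ∑ N ∈ lay 𝒩 T Z l, |wN o (fun j => G j (T j N)) N| := by
    have h2 : ∀ N ∈ 𝒩, |wN o (fun j => G j (T j N)) N| ≤
        ∑ l ∈ range n0, if N ∈ lay 𝒩 T Z l then |wN o (fun j => G j (T j N)) N| else 0 := by
      intro N hN
      obtain ⟨l, hl, hNl⟩ := hn0 N hN
      refine le_trans (le_of_eq ?_) (single_le_sum (f := fun l =>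
        if N ∈ lay 𝒩 T Z l then |wN o (fun j => G j (T j N)) N| else 0)
        (fun l _ => by split_ifs; exacts [abs_nonneg _, le_rfl]) hl)
      rw [if_pos hNl]
    refine (sum_le_sum h2).trans (le_of_eq ?_)
    rw [sum_comm]
    refine sum_congr rfl fun l _ => ?_
    rw [← sum_filter]
    refine sum_congr ?_ fun _ _ => rfl
    ext N
    rw [mem_filter]
    exact ⟨fun h => h.2, fun h => ⟨(mem_lay.1 h).1, h⟩⟩
  have h3 : ∀ l, ∑ N ∈ lay 𝒩 T Z l, |wN o (fun j => G j (T j N)) N| ≤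
      ∑ r ∈ rts (lay 𝒩 T Z l), ∑ N ∈ rgn 𝒩 T Z l r, |wN o (fun j => G j (T j N)) N| := by
    intro l
    have h2 : ∀ N ∈ lay 𝒩 T Z l, |wN o (fun j => G j (T j N)) N| ≤
        ∑ r ∈ rts (lay 𝒩 T Z l), if Bel N r then |wN o (fun j => G j (T j N)) N| else 0 := by
      intro N hN
      obtain ⟨r, hr, hNr⟩ := exists_rt hN
      refine le_trans (le_of_eq ?_) (single_le_sum (f := fun r =>
        if Bel N r then |wN o (fun j => G j (T j N)) N| else 0)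
        (fun l _ => by split_ifs; exacts [abs_nonneg _, le_rfl]) hr)
      rw [if_pos hNr]
    refine (sum_le_sum h2).trans (le_of_eq ?_)
    rw [sum_comm]
    refine sum_congr rfl fun r _ => ?_
    rw [← sum_filter]
    refine sum_congr ?_ fun _ _ => rfl
    ext N
    rw [mem_filter, mem_rgn]
  have h4 : ∀ l, ∑ N ∈ lay 𝒩 T Z l, |wN o (fun j => G j (T j N)) N| ≤
      (C * P * R * 67 * 2 ^ K) * ((8 * L * M * Z * 2 ^ l) ^ s / 2 ^ l) := by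
    intro l
    refine (h3 l).trans ?_
    have h5 : ∀ r ∈ rts (lay 𝒩 T Z l), ∑ N ∈ rgn 𝒩 T Z l r, |wN o (fun j => G j (T j N)) N| ≤
        (C * P * R * (8 * L * M * Z * 2 ^ l) ^ s) * 2 ^ r.1 := by
      intro r hr
      refine (hreg n γ P hγ hP hroot G T o K V 𝒩 hT hGs ho hK hbel hcl L M κ hL hM hκ hκM hGL hloc
        hpack R hR hR0 Z l hZ1 r (mem_rts.1 hr).1).trans (le_of_eq ?_)
      ring
    refine (sum_le_sum h5).trans ?_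
    rw [← mul_sum]
    have h6 := sum_rts_le (𝒩 := 𝒩) (T := T) (Z := Z) (by linarith) hbel' hpackroot l
    have hZ0 : 0 ≤ Z := by linarith
    refine (mul_le_mul_of_nonneg_left h6 (by positivity)).trans (le_of_eq ?_)
    ring
  have h5 : ∑ N ∈ 𝒩, |wN o (fun j => G j (T j N)) N| ≤
      (C * P * R * 67 * 2 ^ K) * (4 * (8 * L * M * Z) ^ s) := by
    refine h1.trans ((sum_le_sum fun l _ => h4 l).trans ?_)
    rw [← mul_sum]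
    have hZ0 : 0 ≤ Z := by linarith
    exact mul_le_mul_of_nonneg_left (sum_layers hs (by positivity) n0) (by positivity)
  refine h5.trans ?_
  have h6 : (8 * L * M * Z) ^ s ≤ 6 * (L * M ^ 2) ^ s := by
    have hZ0 : 0 ≤ Z := by linarith
    have h7 : (8 * L * M * Z) ^ s ≤ (32 * (L * M ^ 2)) ^ s := by
      refine Real.rpow_le_rpow (by positivity) ?_ hs0
      calc 8 * L * M * Z ≤ 8 * L * M * (4 * M) := mul_le_mul_of_nonneg_left hZL (by positivity)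
        _ = 32 * (L * M ^ 2) := by ring
    have h8 : (32 : ℝ) ^ s ≤ 6 := by
      refine (Real.rpow_le_rpow_of_exponent_le (by norm_num) hs).trans ?_
      rw [← Real.sqrt_eq_rpow]
      exact Real.sqrt_le_iff.2 ⟨by norm_num, by norm_num⟩
    rw [Real.mul_rpow (x := 32) (by norm_num) (by positivity : (0 : ℝ) ≤ L * M ^ 2)] at h7
    exact h7.trans (mul_le_mul_of_nonneg_right h8 (by positivity))
  calc (C * P * R * 67 * 2 ^ K) * (4 * (8 * L * M * Z) ^ s)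
      ≤ (C * P * R * 67 * 2 ^ K) * (4 * (6 * (L * M ^ 2) ^ s)) :=
        mul_le_mul_of_nonneg_left (mul_le_mul_of_nonneg_left h6 (by norm_num)) (by positivity)
    _ = C * 67 * 4 * 6 * P * 2 ^ K * R * (L * M ^ 2) ^ s := by ring

open scoped Classical in
/-- **THE MOVING BLACK BOX.**  Four block slots `N ↦ G j (T j N)`, local energies `≤ e j`, packing
`≤ κ j ≤ M` below every node, relative heights `h j / √(e j) ≤ L`. -/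
theorem mbbK {q : ℝ} (hq : 2 < q) : ∃ C : ℝ, 0 < C ∧
    ∀ (n : ℕ) (γ P : ℝ), 0 ≤ γ → γ + 3 * (q - 2) ≤ 1 / 2 → 0 ≤ P →
    (∀ H' : ℝ, 1 ≤ H' → RootQ q n H' (P * H' ^ γ)) →
    ∀ (G : Fin 4 → ℕ × ℤ → ℤ → ℝ) (T : Fin 4 → ℕ × ℤ → ℕ × ℤ)
    (o : ℤ) (K : ℕ) (V : ℤ) (𝒩 : Finset (ℕ × ℤ)), (∀ j, Win 𝒩 (T j)) →
    (∀ j i, (Function.support (G j i)).Finite) → (o = 1 ∨ o = -1) → K ≤ n →
    (∀ N ∈ 𝒩, 1 ≤ N.1 ∧ N.1 ≤ K ∧ N.2 / 2 ^ (K - N.1) = V) →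
    (∀ N ∈ 𝒩, ∀ k', N.1 ≤ k' → k' ≤ K → (k', N.2 / 2 ^ (k' - N.1)) ∈ 𝒩) →
    ∀ (L M : ℝ) (e κ : Fin 4 → ℝ), 1 ≤ L → 1 ≤ M → (∀ j, 0 < e j) → (∀ j, 1 ≤ κ j) →
    (∀ j, κ j ≤ M) →
    (∀ j i x, |G j i x| ≤ L * Real.sqrt (e j)) →
    (∀ j, ∀ N ∈ 𝒩, ∑ y ∈ W N.1 N.2, |G j (T j N) y| ^ 2 ≤ e j * 2 ^ (N.1 + 5)) →
    (∀ j, ∀ Q ∈ 𝒩, ∑ i ∈ tops 𝒩 (T j) with Bel i Q, (2 : ℝ) ^ i.1 ≤ κ j * 2 ^ Q.1) →
    ∀ R : ℝ, (∀ a b, a ≠ b → κ a * κ b ≤ R ^ 2) → 0 ≤ R →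
    ∑ N ∈ 𝒩, |wN o (fun j => G j (T j N)) N| ≤
      C * P * 2 ^ K * R * (∏ j, Real.sqrt (e j)) * (L * M ^ 2) ^ (γ + 3 * (q - 2)) := by
  obtain ⟨C, hC, h1⟩ := mbbK_one hq
  refine ⟨C, hC, ?_⟩
  intro n γ P hγ hs hP hroot G T o K V 𝒩 hT hGs ho hK hbel hcl L M e κ hL hM he hκ hκM hGL hloc hpack
    R hR hR0
  have hse : ∀ j, 0 < Real.sqrt (e j) := fun j => Real.sqrt_pos.2 (he j)
  have h2 := h1 n γ P hγ hs hP hroot (fun j i x => (Real.sqrt (e j))⁻¹ * G j i x) T o K V 𝒩 hT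
    (fun j i => (hGs j i).subset fun x hx => by
      simp only [Function.mem_support] at hx ⊢
      exact right_ne_zero_of_mul hx) ho hK hbel hcl L M κ hL hM hκ hκM
    (fun j i x => by
      rw [abs_mul, abs_of_pos (inv_pos.2 (hse j)), inv_mul_le_iff₀ (hse j), mul_comm]
      exact hGL j i x)
    (fun j N hN => by
      have h3 : ∀ y ∈ W N.1 N.2, |(Real.sqrt (e j))⁻¹ * G j (T j N) y| ^ 2 =
          (e j)⁻¹ * |G j (T j N) y| ^ 2 := by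
        intro y _
        rw [abs_mul, mul_pow, abs_of_pos (inv_pos.2 (hse j)), inv_pow, Real.sq_sqrt (he j).le]
      rw [sum_congr rfl h3, ← mul_sum, inv_mul_le_iff₀ (he j)]
      exact hloc j N hN) hpack R hR hR0
  have h3 : ∀ N ∈ 𝒩, |wN o (fun j => G j (T j N)) N| =
      (∏ j, Real.sqrt (e j)) *
        |wN o (fun j => (fun x => (Real.sqrt (e j))⁻¹ * G j (T j N) x)) N| := by
    intro N _
    have hprod : 0 < ∏ j, Real.sqrt (e j) := prod_pos fun j _ => hse j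
    rw [show (fun j => (fun x => (Real.sqrt (e j))⁻¹ * G j (T j N) x)) =
      fun j x => (fun j => (Real.sqrt (e j))⁻¹) j * (fun j => G j (T j N)) j x from rfl,
      wN_smul, abs_mul, prod_inv_distrib, abs_of_pos (inv_pos.2 hprod), ← mul_assoc,
      mul_inv_cancel₀ hprod.ne', one_mul]
  rw [sum_congr rfl h3, ← mul_sum]
  have hprod : 0 ≤ ∏ j, Real.sqrt (e j) := prod_nonneg fun j _ => (hse j).le
  refine (mul_le_mul_of_nonneg_left h2 hprod).trans (le_of_eq ?_)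
  ring

end Vale.Agent.P141.H845
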