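import Vale.Agent.P141.H845.Mbb

/-!
# P141, line W: near nodes, layers of the number of near tops
-/

namespace Vale.Agent.P141.H845

open Finset Vale.Agent.P141.PL.H855
open Vale.Agent.P141.PL.H571 (W mem_W)

/-! ### disjoint nodes -/

/-- the cell of a node -/
noncomputable def nc (N : ℕ × ℤ) : Finset ℤ := Ico (2 ^ N.1 * N.2) (2 ^ N.1 * (N.2 + 1))

theorem mem_nc {N : ℕ × ℤ} {y : ℤ} : y ∈ nc N ↔ y / 2 ^ N.1 = N.2 := by
  unfold nc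
  have h2 : (0 : ℤ) < 2 ^ N.1 := by positivity
  rw [mem_Ico]
  constructor
  · rintro ⟨h, h'⟩
    refine le_antisymm ?_ ?_
    · exact Int.lt_add_one_iff.mp (Int.ediv_lt_of_lt_mul h2 (by linarith))
    · exact Int.le_ediv_of_mul_le h2 (by linarith)
  · intro h
    rw [← h]
    have h3 := Int.mul_ediv_add_emod y (2 ^ N.1)
    have h4 := Int.emod_nonneg y h2.ne'
    have h5 := Int.emod_lt_of_pos y h2
    constructor <;> linarith

theorem card_nc (N : ℕ × ℤ) : (nc N).card = 2 ^ N.1 := by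
  unfold nc
  rw [Int.card_Ico]
  have e : (2 : ℤ) ^ N.1 * (N.2 + 1) - 2 ^ N.1 * N.2 = ((2 ^ N.1 : ℕ) : ℤ) := by push_cast; ring
  rw [e, Int.toNat_natCast]

theorem bel_of_mem {N M : ℕ × ℤ} {y : ℤ} (hN : y ∈ nc N) (hM : y ∈ nc M) (h : N.1 ≤ M.1) :
    Bel N M := by
  rw [mem_nc] at hN hM
  refine ⟨h, ?_⟩
  rw [← hN, ← hM, ← ediv_pow_add]
  congr 2
  omega

theorem nc_sub {N M : ℕ × ℤ} (h : Bel N M) : nc N ⊆ nc M := by
  intro y hy
  rw [mem_nc] at hy ⊢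
  rw [← h.2, ← hy, ← ediv_pow_add]
  congr 2
  have := h.1
  omega

/-- **measure of disjoint nodes below one node** -/
theorem sum_disj_le {𝒟 : Finset (ℕ × ℤ)} {Q : ℕ × ℤ}
    (hdis : ∀ N ∈ 𝒟, ∀ M ∈ 𝒟, Bel N M → N = M) (hbel : ∀ N ∈ 𝒟, Bel N Q) :
    ∑ N ∈ 𝒟, (2 : ℝ) ^ N.1 ≤ 2 ^ Q.1 := by
  classical
  have h1 : (𝒟.biUnion nc).card ≤ (nc Q).card :=
    card_le_card (biUnion_subset.2 fun N hN => nc_sub (hbel N hN))
  rw [card_biUnion] at h1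
  · have h2 : ((∑ N ∈ 𝒟, (nc N).card : ℕ) : ℝ) ≤ ((nc Q).card : ℝ) := by exact_mod_cast h1
    push_cast [card_nc] at h2
    exact h2
  · intro N hN M hM hne
    refine disjoint_left.2 fun y hy hy' => ?_
    rcases le_total N.1 M.1 with h | h
    · exact hne (hdis N hN M hM (bel_of_mem hy hy' h))
    · exact hne (hdis M hM N hN (bel_of_mem hy' hy h)).symm

/-! ### near nodes -/

/-- the node `i` is near the ancestor of `N` at the scale of `i` -/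
def Nr (N i : ℕ × ℤ) : Prop := N.1 ≤ i.1 ∧ |i.2 - N.2 / 2 ^ (i.1 - N.1)| ≤ 33

theorem nr_mono {N M i : ℕ × ℤ} (h : Bel N M) (hi : Nr M i) : Nr N i := by
  refine ⟨h.1.trans hi.1, ?_⟩
  have e : i.1 - N.1 = (M.1 - N.1) + (i.1 - M.1) := by have := h.1; have := hi.1; omega
  rw [e, ediv_pow_add, h.2]
  exact hi.2

theorem nr_of_bel {N i : ℕ × ℤ} (h : Bel N i) : Nr N i := by
  refine ⟨h.1, ?_⟩
  rw [h.2, sub_self, abs_zero]
  norm_num

theorem nr_of_mem {N i : ℕ × ℤ} {y : ℤ} (hk : N.1 ≤ i.1) (hN : y ∈ W N.1 N.2)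
    (hi : y ∈ W i.1 i.2) : Nr N i := by
  have h1 := W_sub hk N.2 hN
  rw [mem_W] at h1 hi
  refine ⟨hk, ?_⟩
  set u := N.2 / 2 ^ (i.1 - N.1)
  have h2 : (0 : ℤ) < 2 ^ i.1 := by positivity
  have h3 : u - 16 < i.2 + 16 := by
    by_contra h
    push Not at h
    have := mul_le_mul_of_nonneg_left h h2.le
    linarith [h1.1, hi.2]
  have h4 : i.2 - 16 < u + 16 := by
    by_contra h
    push Not at h
    have := mul_le_mul_of_nonneg_left h h2.le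
    linarith [h1.2, hi.1]
  rw [abs_le]
  constructor <;> linarith

open scoped Classical in
/-- **measure of disjoint nodes near one node** -/
theorem sum_near_le {𝒟 : Finset (ℕ × ℤ)} (hdis : ∀ N ∈ 𝒟, ∀ M ∈ 𝒟, Bel N M → N = M)
    (i : ℕ × ℤ) : ∑ N ∈ 𝒟 with Nr N i, (2 : ℝ) ^ N.1 ≤ 67 * 2 ^ i.1 := by
  have h1 : ∀ N ∈ 𝒟.filter (fun N => Nr N i),
      N.2 / 2 ^ (i.1 - N.1) ∈ Icc (i.2 - 33) (i.2 + 33) := by
    intro N hN
    have h2 := (mem_filter.1 hN).2.2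
    rw [abs_le] at h2
    rw [mem_Icc]
    constructor <;> linarith
  rw [← sum_fiberwise_of_maps_to h1]
  have h2 : ∀ u ∈ Icc (i.2 - 33) (i.2 + 33),
      ∑ N ∈ (𝒟.filter fun N => Nr N i) with N.2 / 2 ^ (i.1 - N.1) = u, (2 : ℝ) ^ N.1 ≤
        2 ^ i.1 := by
    intro u _
    refine sum_disj_le (Q := (i.1, u)) (fun N hN M hM => hdis N ?_ M ?_) fun N hN => ?_
    · exact (mem_filter.1 (mem_filter.1 hN).1).1
    · exact (mem_filter.1 (mem_filter.1 hM).1).1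
    · obtain ⟨h3, h4⟩ := mem_filter.1 hN
      exact ⟨(mem_filter.1 h3).2.1, h4⟩
  refine (sum_le_sum h2).trans (le_of_eq ?_)
  rw [sum_const, Int.card_Icc, nsmul_eq_mul]
  congr 1
  have : (i.2 + 33 + 1 - (i.2 - 33)).toNat = 67 := by
    have : i.2 + 33 + 1 - (i.2 - 33) = 67 := by ring
    rw [this]; rfl
  rw [this]; norm_num

/-! ### the number of near tops -/

open scoped Classical in
/-- the number of the tops of all the slots which are near the node -/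
noncomputable def gen (𝒩 : Finset (ℕ × ℤ)) (T : Fin 4 → ℕ × ℤ → ℕ × ℤ) (N : ℕ × ℤ) : ℕ :=
  ∑ j, #{i ∈ tops 𝒩 (T j) | Nr N i}

theorem gen_mono {𝒩 : Finset (ℕ × ℤ)} {T : Fin 4 → ℕ × ℤ → ℕ × ℤ} {N M : ℕ × ℤ} (h : Bel N M) :
    gen 𝒩 T M ≤ gen 𝒩 T N := by
  classical
  unfold gen
  refine sum_le_sum fun j _ => card_le_card fun i hi => ?_
  rw [mem_filter] at hi ⊢
  exact ⟨hi.1, nr_mono h hi.2⟩

open scoped Classical in
theorem card_le_gen {𝒩 : Finset (ℕ × ℤ)} {T : Fin 4 → ℕ × ℤ → ℕ × ℤ} (j : Fin 4) (N : ℕ × ℤ) :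
    #{i ∈ tops 𝒩 (T j) | Nr N i} ≤ gen 𝒩 T N := by
  unfold gen
  exact single_le_sum (f := fun j => #{i ∈ tops 𝒩 (T j) | Nr N i}) (fun _ _ => Nat.zero_le _)
    (mem_univ j)

/-- **measure of disjoint nodes with many near tops** -/
theorem sum_gen_le {𝒩 : Finset (ℕ × ℤ)} {T : Fin 4 → ℕ × ℤ → ℕ × ℤ} {𝒟 : Finset (ℕ × ℤ)}
    (hdis : ∀ N ∈ 𝒟, ∀ M ∈ 𝒟, Bel N M → N = M) :
    ∑ N ∈ 𝒟, (2 : ℝ) ^ N.1 * gen 𝒩 T N ≤ 67 * ∑ j, ∑ i ∈ tops 𝒩 (T j), (2 : ℝ) ^ i.1 := by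
  classical
  have e : ∑ N ∈ 𝒟, (2 : ℝ) ^ N.1 * gen 𝒩 T N =
      ∑ j, ∑ i ∈ tops 𝒩 (T j), ∑ N ∈ 𝒟 with Nr N i, (2 : ℝ) ^ N.1 := by
    unfold gen
    push_cast
    simp_rw [mul_sum]
    rw [sum_comm]
    refine sum_congr rfl fun j _ => ?_
    have e1 : ∀ N ∈ 𝒟, (2 : ℝ) ^ N.1 * (#{i ∈ tops 𝒩 (T j) | Nr N i} : ℝ) =
        ∑ i ∈ tops 𝒩 (T j), if Nr N i then (2 : ℝ) ^ N.1 else 0 := by
      intro N _
      rw [← sum_filter, sum_const, nsmul_eq_mul, mul_comm]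
    rw [sum_congr rfl e1, sum_comm]
    refine sum_congr rfl fun i _ => ?_
    rw [sum_filter]
  rw [e, mul_sum]
  refine sum_le_sum fun j _ => ?_
  rw [mul_sum]
  exact sum_le_sum fun i _ => sum_near_le hdis i

end Vale.Agent.P141.H845
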