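import Vale.Agent.P141.H845.Two
import Vale.Agent.P141.H319.Rad

/-!
# P141, line W: signs.  A moving slot may be replaced by a static signed sum.
-/

namespace Vale.Agent.P141.H845

open Finset Vale.Agent.P141.PL.H855
open Vale.Agent.P141.PL.H571 (W)
open Vale.Agent.P141.PL.H620 (loc1 nn ell pt pts)
open Vale.Agent.P141.H319 (av av_add av_mul_left av_const av_mono av_nonneg av_sum rs av_rs_sq
  av_sg_mul)

/-- the sign of a bit -/
noncomputable def sgn (b : Bool) : ℝ := Vale.Agent.P141.H319.sg b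

theorem abs_sgn (b : Bool) : |sgn b| = 1 := by
  cases b <;> simp [sgn, Vale.Agent.P141.H319.sg]

theorem prod_update (a : Fin 4) (f : Fin 4 → ℤ → ℝ) (u : ℤ → ℝ) (y : Fin 4 → ℤ) :
    ∏ j, (Function.update f a u) j (y j) = u (y a) * ∏ j ∈ univ.erase a, f j (y j) := by
  rw [← mul_prod_erase univ _ (mem_univ a), Function.update_self]
  congr 1
  refine prod_congr rfl fun j hj => ?_
  rw [Function.update_of_ne (ne_of_mem_erase hj)]

/-- linearity in one slot -/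
theorem wN_update_sum {ι : Type*} (o : ℤ) (f : Fin 4 → ℤ → ℝ) (a : Fin 4) (s : Finset ι)
    (c : ι → ℝ) (G : ι → ℤ → ℝ) (N : ℕ × ℤ) :
    wN o (Function.update f a fun y => ∑ i ∈ s, c i * G i y) N =
      ∑ i ∈ s, c i * wN o (Function.update f a (G i)) N := by
  unfold wN loc1
  simp only [prod_update]
  simp only [mul_sum, sum_mul]
  rw [sum_comm]
  refine sum_congr rfl fun i _ => sum_congr rfl fun x _ => ?_
  ring

set_option linter.unusedSectionVars false

variable {ι : Type*} [Fintype ι] [DecidableEq ι]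

/-- the signed sum -/
noncomputable def ss (G : ι → ℤ → ℝ) (ε : ι → Bool) (y : ℤ) : ℝ := ∑ i, sgn (ε i) * G i y

theorem ss_eq_rs (G : ι → ℤ → ℝ) (ε : ι → Bool) (y : ℤ) : ss G ε y = rs univ (fun i => G i y) ε :=
  rfl

theorem abs_ss_le (G : ι → ℤ → ℝ) (ε : ι → Bool) (y : ℤ) : |ss G ε y| ≤ ∑ i, |G i y| := by
  refine (abs_sum_le_sum_abs _ _).trans (le_of_eq (sum_congr rfl fun i _ => ?_))
  rw [abs_mul, abs_sgn, one_mul]

/-- one slot -/
theorem sgn_slot (o : ℤ) (f : Fin 4 → ℤ → ℝ) (a : Fin 4) (G : ι → ℤ → ℝ) (t : ι) (N : ℕ × ℤ) :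
    wN o (Function.update f a (G t)) N =
      av fun ε : ι → Bool => sgn (ε t) * wN o (Function.update f a (ss G ε)) N := by
  have h1 : ∀ ε : ι → Bool, sgn (ε t) * wN o (Function.update f a (ss G ε)) N =
      ∑ i, (wN o (Function.update f a (G i)) N) * (sgn (ε t) * sgn (ε i)) := by
    intro ε
    have e : wN o (Function.update f a (ss G ε)) N =
        ∑ i, sgn (ε i) * wN o (Function.update f a (G i)) N :=
      wN_update_sum o f a univ (fun i => sgn (ε i)) G N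
    rw [e, mul_sum]
    exact sum_congr rfl fun i _ => by ring
  simp_rw [h1]
  rw [av_sum]
  have h2 : ∀ i, av (fun ε : ι → Bool => (wN o (Function.update f a (G i)) N) *
      (sgn (ε t) * sgn (ε i))) = (wN o (Function.update f a (G i)) N) *
        (if t = i then 1 else 0) := by
    intro i
    rw [av_mul_left]
    congr 1
    exact av_sg_mul t i
  rw [sum_congr rfl fun i _ => h2 i]
  simp

theorem abs_av_le (f : (ι → Bool) → ℝ) : |av f| ≤ av fun ε => |f ε| := by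
  unfold av
  rw [abs_div, abs_of_pos (by positivity : (0 : ℝ) < 2 ^ Fintype.card ι)]
  gcongr
  exact abs_sum_le_sum_abs _ _

theorem abs_slot_le (o : ℤ) (f : Fin 4 → ℤ → ℝ) (a : Fin 4) (G : ι → ℤ → ℝ) (t : ι) (N : ℕ × ℤ) :
    |wN o (Function.update f a (G t)) N| ≤
      av fun ε : ι → Bool => |wN o (Function.update f a (ss G ε)) N| := by
  rw [sgn_slot]
  refine (abs_av_le _).trans (av_mono fun ε => ?_)
  rw [abs_mul, abs_sgn, one_mul]

/-- **two slots** -/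
theorem abs_two_le {κ : Type*} [Fintype κ] [DecidableEq κ] (o : ℤ) (f : Fin 4 → ℤ → ℝ)
    {a b : Fin 4} (hab : a ≠ b) (G : ι → ℤ → ℝ) (G' : κ → ℤ → ℝ) (t : ι) (t' : κ) (N : ℕ × ℤ) :
    |wN o (Function.update (Function.update f a (G t)) b (G' t')) N| ≤
      av fun ε : ι → Bool => av fun ε' : κ → Bool =>
        |wN o (Function.update (Function.update f a (ss G ε)) b (ss G' ε')) N| := by
  rw [Function.update_comm hab]
  refine (abs_slot_le o _ a G t N).trans (av_mono fun ε => ?_)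
  rw [Function.update_comm hab.symm]
  exact abs_slot_le o _ b G' t' N

/-- power means -/
theorem av_rpow_le (f : (ι → Bool) → ℝ) (hf : ∀ ε, 0 ≤ f ε) {p : ℝ} (hp : 1 ≤ p) :
    (av f) ^ p ≤ av fun ε => f ε ^ p := by
  have h := Real.rpow_arith_mean_le_arith_mean_rpow (univ : Finset (ι → Bool))
    (fun _ => ((2 : ℝ) ^ Fintype.card ι)⁻¹) f (fun _ _ => by positivity) (by
      rw [sum_const, nsmul_eq_mul, card_univ, Fintype.card_fun, Fintype.card_bool]
      push_cast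
      rw [mul_inv_cancel₀ (by positivity)]) (fun ε _ => hf ε) hp
  unfold av
  rw [div_eq_inv_mul, mul_sum, div_eq_inv_mul, mul_sum]
  exact h

/-- the `L^p` norms of the signed sums, height `≤ H'` -/
theorem av_lp_le (G : ι → ℤ → ℝ) (Y : Finset ℤ) {p H' : ℝ} (hp : 2 ≤ p)
    (hH : ∀ y ∈ Y, ∑ i, |G i y| ≤ H') :
    av (fun ε : ι → Bool => ∑ y ∈ Y, |ss G ε y| ^ p) ≤
      H' ^ (p - 2) * ∑ i, ∑ y ∈ Y, |G i y| ^ 2 := by
  have h1 : ∀ ε : ι → Bool, ∑ y ∈ Y, |ss G ε y| ^ p ≤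
      H' ^ (p - 2) * ∑ y ∈ Y, (ss G ε y) ^ 2 := by
    intro ε
    rw [mul_sum]
    refine sum_le_sum fun y hy => ?_
    have h2 := (abs_ss_le G ε y).trans (hH y hy)
    have h3 : |ss G ε y| ^ p = |ss G ε y| ^ (p - 2) * |ss G ε y| ^ (2 : ℝ) := by
      rw [← Real.rpow_add_of_nonneg (abs_nonneg _) (by linarith) (by norm_num)]
      congr 1
      ring
    rw [h3, Real.rpow_two, sq_abs]
    exact mul_le_mul_of_nonneg_right (Real.rpow_le_rpow (abs_nonneg _) h2 (by linarith))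
      (sq_nonneg _)
  refine (av_mono h1).trans ?_
  rw [av_mul_left, av_sum]
  rcases Y.eq_empty_or_nonempty with rfl | ⟨y₀, hy₀⟩
  · simp
  have hH0 : 0 ≤ H' := (sum_nonneg fun i _ => abs_nonneg _).trans (hH y₀ hy₀)
  refine mul_le_mul_of_nonneg_left (le_of_eq ?_) (Real.rpow_nonneg hH0 _)
  rw [sum_comm]
  refine sum_congr rfl fun y _ => ?_
  have h4 := av_rs_sq (univ : Finset ι) (fun i => G i y)
  simp only [← ss_eq_rs] at h4
  rw [h4]
  exact sum_congr rfl fun i _ => (sq_abs _).symm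

/-- the size of a signed sum on the window of the root -/
noncomputable def sz (p φ : ℝ) (K : ℕ) (V : ℤ) (G : ι → ℤ → ℝ) (ε : ι → Bool) : ℝ :=
  (φ ^ p + (2 ^ (K + 5))⁻¹ * ∑ y ∈ W K V, |ss G ε y| ^ p) ^ (1 / p)

theorem le_sz {p φ : ℝ} (hp : 0 < p) (hφ : 0 < φ) (K : ℕ) (V : ℤ) (G : ι → ℤ → ℝ)
    (ε : ι → Bool) : φ ≤ sz p φ K V G ε := by
  have h1 : φ = (φ ^ p) ^ (1 / p) := by
    rw [← Real.rpow_mul hφ.le, mul_one_div_cancel hp.ne', Real.rpow_one]
  have h2 : 0 ≤ ∑ y ∈ W K V, |ss G ε y| ^ p :=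
    sum_nonneg fun y _ => Real.rpow_nonneg (abs_nonneg _) _
  calc φ = (φ ^ p) ^ (1 / p) := h1
    _ ≤ _ := by
      refine Real.rpow_le_rpow (Real.rpow_nonneg hφ.le _) ?_ (by positivity)
      have : 0 ≤ (2 ^ (K + 5) : ℝ)⁻¹ * ∑ y ∈ W K V, |ss G ε y| ^ p := by positivity
      linarith

theorem sz_rpow {p φ : ℝ} (hp : 0 < p) (hφ : 0 < φ) (K : ℕ) (V : ℤ) (G : ι → ℤ → ℝ)
    (ε : ι → Bool) : sz p φ K V G ε ^ p =
      φ ^ p + (2 ^ (K + 5))⁻¹ * ∑ y ∈ W K V, |ss G ε y| ^ p := by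
  have h2 : 0 ≤ ∑ y ∈ W K V, |ss G ε y| ^ p :=
    sum_nonneg fun y _ => Real.rpow_nonneg (abs_nonneg _) _
  have h3 : 0 ≤ φ ^ p := Real.rpow_nonneg hφ.le _
  unfold sz
  rw [← Real.rpow_mul (by positivity), one_div_mul_cancel hp.ne', Real.rpow_one]

theorem sum_le_sz {p φ : ℝ} (hp : 0 < p) (hφ : 0 < φ) (K : ℕ) (V : ℤ) (G : ι → ℤ → ℝ)
    (ε : ι → Bool) : ∑ y ∈ W K V, |ss G ε y| ^ p ≤ sz p φ K V G ε ^ p * 2 ^ (K + 5) := by
  rw [sz_rpow hp hφ]
  have h3 : 0 ≤ φ ^ p := Real.rpow_nonneg hφ.le _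
  have h4 : (φ ^ p + (2 ^ (K + 5))⁻¹ * ∑ y ∈ W K V, |ss G ε y| ^ p) * 2 ^ (K + 5) =
      φ ^ p * 2 ^ (K + 5) + ∑ y ∈ W K V, |ss G ε y| ^ p := by
    field_simp
  rw [h4]
  have : 0 ≤ φ ^ p * 2 ^ (K + 5) := by positivity
  linarith

theorem av_sz_le {p φ H' e : ℝ} (hp : 2 ≤ p) (hφ : 0 < φ) (hH'0 : 0 ≤ H') (K : ℕ) (V : ℤ)
    (G : ι → ℤ → ℝ) (hG : ∀ y, ∑ i, |G i y| ≤ H')
    (he : ∑ i, ∑ y ∈ W K V, |G i y| ^ 2 ≤ e * 2 ^ (K + 5)) :
    av (fun ε : ι → Bool => sz p φ K V G ε) ≤ (φ ^ p + H' ^ (p - 2) * e) ^ (1 / p) := by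
  have hp0 : 0 < p := by linarith
  have h1 : (av fun ε : ι → Bool => sz p φ K V G ε) ^ p ≤ φ ^ p + H' ^ (p - 2) * e := by
    refine (av_rpow_le _ (fun ε => hφ.le.trans (le_sz hp0 hφ K V G ε)) (by linarith)).trans ?_
    simp_rw [sz_rpow hp0 hφ]
    rw [av_add, av_const, av_mul_left]
    have h3 := av_lp_le G (W K V) hp (fun y _ => hG y)
    have h4 : 0 ≤ H' ^ (p - 2) := Real.rpow_nonneg hH'0 _
    have h5 : (2 ^ (K + 5) : ℝ)⁻¹ * av (fun ε : ι → Bool => ∑ y ∈ W K V, |ss G ε y| ^ p) ≤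
        (2 ^ (K + 5))⁻¹ * (H' ^ (p - 2) * (e * 2 ^ (K + 5))) := by
      refine mul_le_mul_of_nonneg_left (h3.trans ?_) (by positivity)
      exact mul_le_mul_of_nonneg_left he h4
    have h6 : (2 ^ (K + 5) : ℝ)⁻¹ * (H' ^ (p - 2) * (e * 2 ^ (K + 5))) = H' ^ (p - 2) * e := by
      field_simp
    linarith
  have h7 : 0 ≤ av fun ε : ι → Bool => sz p φ K V G ε :=
    av_nonneg fun ε => hφ.le.trans (le_sz hp0 hφ K V G ε)
  calc av (fun ε : ι → Bool => sz p φ K V G ε) =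
      ((av fun ε : ι → Bool => sz p φ K V G ε) ^ p) ^ (1 / p) := by
        rw [← Real.rpow_mul h7, mul_one_div_cancel hp0.ne', Real.rpow_one]
    _ ≤ _ := Real.rpow_le_rpow (Real.rpow_nonneg h7 _) h1 (by positivity)

theorem ss_supp (G : ι → ℤ → ℝ) (hG : ∀ i, (Function.support (G i)).Finite) (ε : ι → Bool) :
    (Function.support (ss G ε)).Finite := by
  refine (Set.finite_iUnion hG).subset fun y hy => ?_
  simp only [Set.mem_iUnion, Function.mem_support]
  by_contra h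
  push Not at h
  apply hy
  unfold ss
  exact sum_eq_zero fun i _ => by rw [h i, mul_zero]

/-- **one region, two signed slots.** `f` gives the two static slots; `a`, `b` are moving with the
values `G (T N)`, `G' (T' N)` at the node `N`. -/
theorem signed {q p : ℝ} (hq : 0 < q) (hqp : q < p) (hp2 : 2 ≤ p) : ∃ C : ℝ, 0 < C ∧
    ∀ (n : ℕ) (H P : ℝ), 0 ≤ P → RootQ q n H P →
    ∀ {ι κ : Type} [Fintype ι] [DecidableEq ι] [Fintype κ] [DecidableEq κ]
    (f : Fin 4 → ℤ → ℝ) (a b : Fin 4) (G : ι → ℤ → ℝ) (G' : κ → ℤ → ℝ)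
    (T : ℕ × ℤ → ι) (T' : ℕ × ℤ → κ)
    (o : ℤ) (K : ℕ) (V : ℤ) (𝒩 𝒮 : Finset (ℕ × ℤ)), a ≠ b → 𝒮 ⊆ 𝒩 →
    (∀ j, (Function.support (f j)).Finite) → (∀ i, (Function.support (G i)).Finite) →
    (∀ i, (Function.support (G' i)).Finite) → (o = 1 ∨ o = -1) → K ≤ n →
    (∀ N ∈ 𝒩, 1 ≤ N.1 ∧ N.1 ≤ K ∧ N.2 / 2 ^ (K - N.1) = V) →
    (∀ N ∈ 𝒩, ∀ k', N.1 ≤ k' → k' ≤ K → (k', N.2 / 2 ^ (k' - N.1)) ∈ 𝒩) →
    ∀ (α : Fin 4 → ℝ), (∀ j, 0 < α j) → (∀ j x, |f j x| ≤ H * α j) →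
    (∀ j, j ≠ a → j ≠ b → ∀ N ∈ 𝒩, ∑ y ∈ W N.1 N.2, |f j y| ^ q ≤ α j ^ q * 2 ^ (N.1 + 5)) →
    ∀ (φ H' e e' : ℝ), 0 < φ → 0 ≤ H' → H' ≤ H * φ →
    (∀ y, ∑ i, |G i y| ≤ H') → (∀ y, ∑ i, |G' i y| ≤ H') →
    ∑ i, ∑ y ∈ W K V, |G i y| ^ 2 ≤ e * 2 ^ (K + 5) →
    ∑ i, ∑ y ∈ W K V, |G' i y| ^ 2 ≤ e' * 2 ^ (K + 5) →
    ∑ N ∈ 𝒮, |wN o (Function.update (Function.update f a (G (T N))) b (G' (T' N))) N| ≤
      C * P * 2 ^ K * (∏ j ∈ (univ.erase a).erase b, α j) *
        ((φ ^ p + H' ^ (p - 2) * e) ^ (1 / p) * (φ ^ p + H' ^ (p - 2) * e') ^ (1 / p)) := by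
  obtain ⟨C, hC, hmix⟩ := mixed hq hqp
  refine ⟨C, hC, ?_⟩
  intro n H P hP hroot ι κ _ _ _ _ f a b G G' T T' o K V 𝒩 𝒮 hab h𝒮 hfs hGs hGs' ho hK hbel hcl α
    hα hfH hloc φ H' e e' hφ hH'0 hH'φ hGH hGH' hGe hGe'
  have hp0 : 0 < p := hq.trans hqp
  have hp1 : 1 ≤ p := by linarith
  -- signs
  have h1 : ∑ N ∈ 𝒮, |wN o (Function.update (Function.update f a (G (T N))) b (G' (T' N))) N| ≤
      av fun ε : ι → Bool => av fun ε' : κ → Bool => ∑ N ∈ 𝒮,
        |wN o (Function.update (Function.update f a (ss G ε)) b (ss G' ε')) N| := by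
    refine (sum_le_sum fun N _ => abs_two_le o f hab G G' (T N) (T' N) N).trans (le_of_eq ?_)
    rw [← av_sum]
    congr 1
    funext ε
    rw [← av_sum]
  refine h1.trans ?_
  -- the mixed estimate
  have h2 : ∀ (ε : ι → Bool) (ε' : κ → Bool), ∑ N ∈ 𝒮,
      |wN o (Function.update (Function.update f a (ss G ε)) b (ss G' ε')) N| ≤
      (C * P * 2 ^ K * ∏ j ∈ (univ.erase a).erase b, α j) * (sz p φ K V G ε * sz p φ K V G' ε') := by
    intro ε ε'
    set g : Fin 4 → ℤ → ℝ := Function.update (Function.update f a (ss G ε)) b (ss G' ε') with hg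
    set β : Fin 4 → ℝ := Function.update (Function.update α a (sz p φ K V G ε)) b (sz p φ K V G' ε') with hβ
    have hga : g a = ss G ε := by
      rw [hg, Function.update_of_ne hab, Function.update_self]
    have hgb : g b = ss G' ε' := by rw [hg, Function.update_self]
    have hgj : ∀ j, j ≠ a → j ≠ b → g j = f j := fun j h1 h2 => by
      rw [hg, Function.update_of_ne h2, Function.update_of_ne h1]
    have hβa : β a = sz p φ K V G ε := by
      rw [hβ, Function.update_of_ne hab, Function.update_self]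
    have hβb : β b = sz p φ K V G' ε' := by rw [hβ, Function.update_self]
    have hβj : ∀ j, j ≠ a → j ≠ b → β j = α j := fun j h1 h2 => by
      rw [hβ, Function.update_of_ne h2, Function.update_of_ne h1]
    have hH0 : 0 ≤ H := by
      by_contra h
      push Not at h
      nlinarith
    have h3 := hmix n H P hP hroot g o K V 𝒩 (by
        intro j
        rcases eq_or_ne j b with rfl | hjb
        · rw [hgb]; exact ss_supp G' hGs' ε'
        rcases eq_or_ne j a with rfl | hja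
        · rw [hga]; exact ss_supp G hGs ε
        rw [hgj j hja hjb]; exact hfs j) ho hK hbel hcl β (by
        intro j
        rcases eq_or_ne j b with rfl | hjb
        · rw [hβb]; exact hφ.trans_le (le_sz hp0 hφ K V _ _)
        rcases eq_or_ne j a with rfl | hja
        · rw [hβa]; exact hφ.trans_le (le_sz hp0 hφ K V _ _)
        rw [hβj j hja hjb]; exact hα j) (by
        intro j x
        rcases eq_or_ne j b with rfl | hjb
        · rw [hβb, hgb]
          exact (abs_ss_le G' ε' x).trans ((hGH' x).trans (hH'φ.trans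
            (mul_le_mul_of_nonneg_left (le_sz hp0 hφ K V _ _) hH0)))
        rcases eq_or_ne j a with rfl | hja
        · rw [hβa, hga]
          exact (abs_ss_le G ε x).trans ((hGH x).trans (hH'φ.trans
            (mul_le_mul_of_nonneg_left (le_sz hp0 hφ K V _ _) hH0)))
        rw [hβj j hja hjb, hgj j hja hjb]; exact hfH j x) {a, b} (by
        rw [card_pair hab]; push_cast; exact hp2) (by
        intro j hj N hN
        rw [mem_insert, mem_singleton, not_or] at hj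
        rw [hβj j hj.1 hj.2, hgj j hj.1 hj.2]
        exact hloc j hj.1 hj.2 N hN) (by
        intro j hj
        rw [mem_insert, mem_singleton] at hj
        rcases hj with rfl | rfl
        · rw [hβa, hga]; exact sum_le_sz hp0 hφ K V G ε
        · rw [hβb, hgb]; exact sum_le_sz hp0 hφ K V G' ε')
    have h4 : ∏ j, β j = (∏ j ∈ (univ.erase a).erase b, α j) * (sz p φ K V G ε * sz p φ K V G' ε') := by
      rw [← mul_prod_erase univ _ (mem_univ a),
        ← mul_prod_erase (univ.erase a) _ (mem_erase.2 ⟨hab.symm, mem_univ b⟩), hβa, hβb]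
      have h5 : ∏ j ∈ (univ.erase a).erase b, β j = ∏ j ∈ (univ.erase a).erase b, α j := by
        refine prod_congr rfl fun j hj => ?_
        rw [mem_erase, mem_erase] at hj
        exact hβj j hj.2.1 hj.1
      rw [h5]
      ring
    rw [h4] at h3
    refine (sum_le_sum_of_subset_of_nonneg h𝒮 fun _ _ _ => abs_nonneg _).trans
      (h3.trans (le_of_eq (by ring)))
  have h3 : (0 : ℝ) ≤ C * P * 2 ^ K * ∏ j ∈ (univ.erase a).erase b, α j := by
    have : 0 ≤ ∏ j ∈ (univ.erase a).erase b, α j := prod_nonneg fun j _ => (hα j).le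
    positivity
  calc (av fun ε : ι → Bool => av fun ε' : κ → Bool => ∑ N ∈ 𝒮,
        |wN o (Function.update (Function.update f a (ss G ε)) b (ss G' ε')) N|) ≤
        av fun ε : ι → Bool => av fun ε' : κ → Bool =>
          (C * P * 2 ^ K * ∏ j ∈ (univ.erase a).erase b, α j) * (sz p φ K V G ε * sz p φ K V G' ε') :=
        av_mono fun ε => av_mono fun ε' => h2 ε ε'
    _ = (C * P * 2 ^ K * ∏ j ∈ (univ.erase a).erase b, α j) *
          ((av fun ε : ι → Bool => sz p φ K V G ε) * av fun ε' : κ → Bool => sz p φ K V G' ε') := by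
        simp_rw [av_mul_left]
        congr 1
        have e1 : ∀ ε : ι → Bool, (sz p φ K V G ε * av fun ε' : κ → Bool => sz p φ K V G' ε') =
            (av fun ε' : κ → Bool => sz p φ K V G' ε') * sz p φ K V G ε := fun ε => mul_comm _ _
        simp_rw [e1]
        rw [av_mul_left]
        ring
    _ ≤ (C * P * 2 ^ K * ∏ j ∈ (univ.erase a).erase b, α j) *
        ((φ ^ p + H' ^ (p - 2) * e) ^ (1 / p) * (φ ^ p + H' ^ (p - 2) * e') ^ (1 / p)) := by
        refine mul_le_mul_of_nonneg_left ?_ h3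
        refine mul_le_mul (av_sz_le hp2 hφ hH'0 K V G hGH hGe) (av_sz_le hp2 hφ hH'0 K V G' hGH' hGe') ?_ ?_
        · exact av_nonneg fun ε => hφ.le.trans (le_sz hp0 hφ K V _ _)
        · exact (av_nonneg fun ε => hφ.le.trans (le_sz hp0 hφ K V G ε)).trans (av_sz_le hp2 hφ hH'0 K V G hGH hGe)

end Vale.Agent.P141.H845
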