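import Vale.Agent.P141.PL.H855.RootG
import Vale.Agent.P141.PL.H620.UnifNode

/-!
# P141, line W: the root constant as a black box, some slots local, some slots global

`mixed`: if `RootQ q n H P` holds, then for functions whose `L^q` window averages are `≤ α j` on all
the nodes (slots outside `S`), or whose `L^p` average on the root window is `≤ α j` (slots in `S`,
`p > q`, `p ≥ #S`), the sum over the nodes is `≤ C P 2^K ∏ α j`.
-/

namespace Vale.Agent.P141.H845

open Finset Vale.Agent.P141.PL.H855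
open Vale.Agent.P141.PL.H571 (W RM RMq RM_mono RM_nonneg av_le_RM mem_W ell_mem_W loc1_smul
  stop_abs card_W mem_cell)
open Vale.Agent.P141.PL.H620 (loc1 nn ell pt pts sg hl_unif)

/-- the value of a node only depends on the functions on the window of the node -/
theorem wN_congr {o : ℤ} (ho : o = 1 ∨ o = -1) {f g : Fin 4 → ℤ → ℝ} {N : ℕ × ℤ}
    (h : ∀ j, ∀ y ∈ W N.1 N.2, f j y = g j y) : wN o f N = wN o g N := by
  unfold wN loc1
  congr 2
  refine sum_congr rfl fun x hx => ?_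
  congr 1
  exact prod_congr rfl fun j _ => h j _ (ell_mem_W ho hx j)

theorem wN_smul (o : ℤ) (a : Fin 4 → ℝ) (f : Fin 4 → ℤ → ℝ) (N : ℕ × ℤ) :
    wN o (fun j x => a j * f j x) N = (∏ j, a j) * wN o f N := by
  unfold wN
  rw [loc1_smul]
  ring

/-- windows are nested -/
theorem W_sub {k K : ℕ} (hk : k ≤ K) (v : ℤ) : W k v ⊆ W K (v / 2 ^ (K - k)) := by
  intro y hy
  rw [mem_W] at hy ⊢
  obtain ⟨h1, h2⟩ := hy
  have e : (2 : ℤ) ^ K = 2 ^ k * 2 ^ (K - k) := by
    rw [← pow_add]; congr 1; omega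
  set t : ℤ := 2 ^ (K - k) with ht
  have ht0 : 1 ≤ t := one_le_pow₀ (by norm_num)
  have hk0 : (0 : ℤ) < 2 ^ k := by positivity
  have h3 := Int.mul_ediv_add_emod v t
  have h4 := Int.emod_nonneg v (by positivity : t ≠ 0)
  have h5 := Int.emod_lt_of_pos v (by positivity : 0 < t)
  rw [e]
  constructor
  · have : t * (v / t - 16) ≤ v - 16 := by nlinarith
    calc 2 ^ k * t * (v / t - 16) = 2 ^ k * (t * (v / t - 16)) := by ring
      _ ≤ 2 ^ k * (v - 16) := mul_le_mul_of_nonneg_left this hk0.le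
      _ ≤ y := h1
  · have : v + 16 ≤ t * (v / t + 16) := by nlinarith
    calc y < 2 ^ k * (v + 16) := h2
      _ ≤ 2 ^ k * (t * (v / t + 16)) := mul_le_mul_of_nonneg_left this hk0.le
      _ = 2 ^ k * t * (v / t + 16) := by ring

theorem prod_le_one_add {ι : Type*} (S : Finset ι) (u : ι → ℝ) (hu : ∀ j ∈ S, 1 ≤ u j) {p : ℝ}
    (hp : (S.card : ℝ) ≤ p) : ∏ j ∈ S, u j ≤ 1 + ∑ j ∈ S, u j ^ p := by
  classical
  rcases S.eq_empty_or_nonempty with rfl | hS
  · simp
  · obtain ⟨i, hi, him⟩ := S.exists_max_image u hS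
    have h1 : ∏ j ∈ S, u j ≤ ∏ j ∈ S, u i := prod_le_prod (fun j hj => by linarith [hu j hj]) him
    rw [prod_const] at h1
    have h2 : u i ^ S.card ≤ u i ^ p := by
      rw [← Real.rpow_natCast]
      exact Real.rpow_le_rpow_of_exponent_le (hu i hi) hp
    have h3 : u i ^ p ≤ ∑ j ∈ S, u j ^ p :=
      single_le_sum (f := fun j => u j ^ p)
        (fun j hj => Real.rpow_nonneg (by linarith [hu j hj]) _) hi
    linarith

/-- **mixed form of the root estimate** -/
theorem mixed {q p : ℝ} (hq : 0 < q) (hqp : q < p) : ∃ C : ℝ, 0 < C ∧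
    ∀ (n : ℕ) (H P : ℝ), 0 ≤ P → RootQ q n H P →
    ∀ (f : Fin 4 → ℤ → ℝ) (o : ℤ) (K : ℕ) (V : ℤ) (𝒩 : Finset (ℕ × ℤ)),
    (∀ j, (Function.support (f j)).Finite) → (o = 1 ∨ o = -1) → K ≤ n →
    (∀ N ∈ 𝒩, 1 ≤ N.1 ∧ N.1 ≤ K ∧ N.2 / 2 ^ (K - N.1) = V) →
    (∀ N ∈ 𝒩, ∀ k', N.1 ≤ k' → k' ≤ K → (k', N.2 / 2 ^ (k' - N.1)) ∈ 𝒩) →
    ∀ (α : Fin 4 → ℝ), (∀ j, 0 < α j) → (∀ j x, |f j x| ≤ H * α j) →
    ∀ S : Finset (Fin 4), (S.card : ℝ) ≤ p →
    (∀ j, j ∉ S → ∀ N ∈ 𝒩, ∑ y ∈ W N.1 N.2, |f j y| ^ q ≤ α j ^ q * 2 ^ (N.1 + 5)) →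
    (∀ j ∈ S, ∑ y ∈ W K V, |f j y| ^ p ≤ α j ^ p * 2 ^ (K + 5)) →
    ∑ N ∈ 𝒩, |wN o f N| ≤ C * P * 2 ^ K * ∏ j, α j := by
  classical
  set Ch : ℝ := 4 ^ (p / q) * (2 ^ (p / q) * (2 * ((p / q) / (p / q - 1)) ^ (p / q))) with hCh
  have hr1 : 1 < p / q := (one_lt_div hq).2 hqp
  have hCh0 : 0 < Ch := by
    have : (0 : ℝ) < ((p / q) / (p / q - 1)) ^ (p / q) :=
      Real.rpow_pos_of_pos (div_pos (by linarith) (by linarith)) _
    positivity
  have hp0 : 0 < p := hq.trans hqp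
  refine ⟨2 * 2 ^ (Fintype.card (Option (Fin 4))) * (1 + 4 * (1 + 32 * Ch)), by positivity, ?_⟩
  intro n H P hP hroot f₀ o K V 𝒩 hf₀ ho hK hbel hcl α hα hH₀ S hS hloc₀ hglob₀
  -- cut to the root window
  set f : Fin 4 → ℤ → ℝ := fun j x => if x ∈ W K V then f₀ j x else 0 with hf
  have hWsub : ∀ N ∈ 𝒩, W N.1 N.2 ⊆ W K V := by
    intro N hN
    obtain ⟨_, h2, h3⟩ := hbel N hN
    rw [← h3]
    exact W_sub h2 N.2
  have hfe : ∀ N ∈ 𝒩, ∀ j, ∀ y ∈ W N.1 N.2, f j y = f₀ j y := by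
    intro N hN j y hy
    simp only [hf]
    rw [if_pos (hWsub N hN hy)]
  have hsum0 : ∑ N ∈ 𝒩, |wN o f₀ N| = ∑ N ∈ 𝒩, |wN o f N| :=
    sum_congr rfl fun N hN => by
      rw [wN_congr ho (fun j y hy => (hfe N hN j y hy).symm)]
  rw [hsum0]
  have hfs : ∀ j, (Function.support (f j)).Finite := fun j =>
    (hf₀ j).subset fun x hx => by
      simp only [Function.mem_support, hf] at hx ⊢
      intro h0
      exact hx (by rw [h0]; split_ifs <;> rfl)
  have hH : ∀ j x, |f j x| ≤ H * α j := by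
    intro j x
    simp only [hf]
    split_ifs
    · exact hH₀ j x
    · rw [abs_zero]
      exact (abs_nonneg _).trans (hH₀ j x)
  have hloc : ∀ j, j ∉ S → ∀ N ∈ 𝒩, ∑ y ∈ W N.1 N.2, |f j y| ^ q ≤ α j ^ q * 2 ^ (N.1 + 5) := by
    intro j hj N hN
    rw [sum_congr rfl fun y hy => by rw [hfe N hN j y hy]]
    exact hloc₀ j hj N hN
  have hglob : ∀ j ∈ S, ∑' y, |f j y| ^ p ≤ α j ^ p * 2 ^ (K + 5) := by
    intro j hj
    have h1 : ∑' y, |f j y| ^ p = ∑ y ∈ W K V, |f j y| ^ p := by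
      refine tsum_eq_sum fun y hy => ?_
      simp only [hf]
      rw [if_neg hy, abs_zero, Real.zero_rpow hp0.ne']
    rw [h1]
    refine (le_of_eq (sum_congr rfl fun y hy => ?_)).trans (hglob₀ j hj)
    simp only [hf]
    rw [if_pos hy]
  -- the stopping functions
  set A : Option (Fin 4) → ℕ → ℤ → ℝ := fun j k v => match j with
    | none => if v / 2 ^ (K - k) = V then 1 else 0
    | some j => if j ∈ S then max (α j) (RM q (f j) K k v) else α j with hA
  have hAsome : ∀ j k v, α j ≤ A (some j) k v := by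
    intro j k v
    simp only [hA]
    split_ifs
    · exact le_max_left _ _
    · exact le_rfl
  have hmono : ∀ j k k' v, k ≤ k' → k' ≤ K → A j k' (v / 2 ^ (k' - k)) ≤ A j k v := by
    intro j k k' v h1 h2
    cases j with
    | none =>
      simp only [hA]
      have e : v / 2 ^ (k' - k) / 2 ^ (K - k') = v / 2 ^ (K - k) := by
        rw [← ediv_pow_add]
        congr 2
        omega
      rw [e]
    | some j =>
      simp only [hA]
      split_ifs
      · exact max_le_max le_rfl (RM_mono hq (f j) h1 v)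
      · exact le_rfl
  set w : ℕ → ℤ → ℝ := fun k v => if (k, v) ∈ 𝒩 then |wN o f (k, v)| else 0 with hw
  have hw0 : ∀ k v, k ≤ K → (∃ j, A j k v ≤ 0) → w k v = 0 := by
    rintro k v hk ⟨j, hj⟩
    cases j with
    | none =>
      simp only [hA] at hj
      simp only [hw]
      rw [if_neg]
      intro hN
      have := (hbel _ hN).2.2
      simp only at this
      rw [if_pos this] at hj
      linarith
    | some j =>
      exact absurd hj (not_le.2 ((hα j).trans_le (hAsome j k v)))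
  have hR : ∀ K' ≤ K, ∀ V' : ℤ, ∀ a : Option (Fin 4) → ℝ, (∀ j, 0 < a j) →
      ∀ 𝒩' : Finset (ℕ × ℤ),
      (∀ N ∈ 𝒩', N.1 ≤ K' ∧ N.2 / 2 ^ (K' - N.1) = V' ∧ ∀ j, A j N.1 N.2 ≤ a j) →
      ∑ N ∈ 𝒩', w N.1 N.2 ≤ P * 2 ^ K' * ∏ j, a j := by
    intro K' hK' V' a ha 𝒩' h𝒩'
    set 𝒩₁ : Finset (ℕ × ℤ) := 𝒩'.filter fun N => N ∈ 𝒩 with h𝒩₁
    have hs1 : ∑ N ∈ 𝒩', w N.1 N.2 = ∑ N ∈ 𝒩₁, |wN o f N| := by
      rw [h𝒩₁, sum_filter]
    rw [hs1]
    have hprod0 : 0 ≤ ∏ j, a j := prod_nonneg fun j _ => (ha j).le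
    rcases 𝒩₁.eq_empty_or_nonempty with h0 | ⟨N₀, hN₀⟩
    · rw [h0, sum_empty]
      positivity
    · have hN₀' := mem_filter.1 hN₀
      obtain ⟨_, _, hN₀A⟩ := h𝒩' N₀ hN₀'.1
      have hαa : ∀ j, α j ≤ a (some j) := fun j => (hAsome j N₀.1 N₀.2).trans (hN₀A (some j))
      have ha1 : 1 ≤ a none := by
        have h1 := hN₀A none
        simp only [hA] at h1
        rwa [if_pos (hbel _ hN₀'.2).2.2] at h1
      -- the region
      set 𝒩₂ : Finset (ℕ × ℤ) := 𝒩.filter fun N =>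
        (N.1 ≤ K' ∧ N.2 / 2 ^ (K' - N.1) = V') ∧ ∀ j, A j N.1 N.2 ≤ a j with h𝒩₂
      set g : Fin 4 → ℤ → ℝ := fun j x => (a (some j))⁻¹ * f j x with hg
      have hH0 : 0 ≤ H := by
        have h1 := (abs_nonneg _).trans (hH 0 0)
        have h2 := hα 0
        by_contra h3
        push Not at h3
        nlinarith
      have hdat : Dat q n H g o K' V' 𝒩₂ := by
        refine ⟨?_, ho, hK'.trans hK, ?_, ?_, ?_, ?_⟩
        · intro j
          refine (hfs j).subset fun x hx => ?_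
          simp only [Function.mem_support] at hx ⊢
          intro h0
          apply hx
          simp only [hg, h0, mul_zero]
        · intro N hN
          obtain ⟨h1, h2, h3⟩ := mem_filter.1 hN
          exact ⟨(hbel N h1).1, h2.1, h2.2⟩
        · intro N hN k' h1 h2
          obtain ⟨h3, h4, h5⟩ := mem_filter.1 hN
          refine mem_filter.2 ⟨hcl N h3 k' h1 (h2.trans hK'), ⟨h2, ?_⟩, fun j => ?_⟩
          · simp only
            rw [← ediv_pow_add, ← h4.2]
            congr 2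
            omega
          · exact (hmono j N.1 k' N.2 h1 (h2.trans hK')).trans (h5 j)
        · intro j x
          simp only [hg]
          rw [abs_mul, abs_of_pos (inv_pos.2 (ha _)), inv_mul_le_iff₀ (ha _), mul_comm]
          exact (hH j x).trans (mul_le_mul_of_nonneg_left (hαa j) hH0)
        · intro N hN j
          obtain ⟨h3, h4, h5⟩ := mem_filter.1 hN
          have h6 : ∑ y ∈ W N.1 N.2, |g j y| ^ q =
              ((a (some j))⁻¹) ^ q * ∑ y ∈ W N.1 N.2, |f j y| ^ q := by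
            rw [mul_sum]
            refine sum_congr rfl fun y _ => ?_
            simp only [hg]
            rw [abs_mul, abs_of_pos (inv_pos.2 (ha _)),
              Real.mul_rpow (inv_pos.2 (ha _)).le (abs_nonneg _)]
          have h7 : ∑ y ∈ W N.1 N.2, |f j y| ^ q ≤ a (some j) ^ q * 2 ^ (N.1 + 5) := by
            by_cases hj : j ∈ S
            · have h8 : RM q (f j) K N.1 N.2 ≤ a (some j) := by
                have h9 := h5 (some j)
                simp only [hA] at h9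
                rw [if_pos hj] at h9
                exact (le_max_right _ _).trans h9
              have h9 := av_le_RM hq (f j) (le_refl N.1) (h4.1.trans hK') N.2
              rw [Nat.sub_self, pow_zero, Int.ediv_one] at h9
              have h10 : RM q (f j) K N.1 N.2 ^ q ≤ a (some j) ^ q :=
                Real.rpow_le_rpow (RM_nonneg _ _ _ _ _) h8 hq.le
              have h11 := h9.trans h10
              rwa [PL.H571.av, div_le_iff₀ (by positivity)] at h11
            · refine (hloc j hj N h3).trans ?_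
              refine mul_le_mul_of_nonneg_right ?_ (by positivity)
              exact Real.rpow_le_rpow (hα j).le (hαa j) hq.le
          rw [h6]
          refine (mul_le_mul_of_nonneg_left h7
            (Real.rpow_nonneg (inv_pos.2 (ha _)).le _)).trans (le_of_eq ?_)
          rw [← mul_assoc, ← Real.mul_rpow (inv_pos.2 (ha _)).le (ha _).le,
            inv_mul_cancel₀ (ha _).ne', Real.one_rpow, one_mul]
      have h1 := hroot g o K' V' 𝒩₂ hdat
      have h2 : ∀ N, |wN o f N| = (∏ j, a (some j)) * |wN o g N| := by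
        intro N
        have e : f = fun j x => a (some j) * g j x := by
          funext j x
          simp only [hg]
          rw [mul_inv_cancel_left₀ (ha _).ne']
        rw [e, wN_smul, abs_mul, abs_of_pos (prod_pos fun j _ => ha _)]
      have h3 : ∑ N ∈ 𝒩₁, |wN o f N| ≤ ∑ N ∈ 𝒩₂, |wN o f N| := by
        refine sum_le_sum_of_subset_of_nonneg (fun N hN => ?_) fun _ _ _ => abs_nonneg _
        obtain ⟨h4, h5⟩ := mem_filter.1 hN
        obtain ⟨h6, h7, h8⟩ := h𝒩' N h4
        exact mem_filter.2 ⟨h5, ⟨h6, h7⟩, h8⟩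
      refine h3.trans ?_
      rw [sum_congr rfl fun N _ => h2 N, ← mul_sum, Fintype.prod_option]
      have h4 : 0 ≤ ∏ j : Fin 4, a (some j) := prod_nonneg fun j _ => (ha _).le
      calc (∏ j, a (some j)) * ∑ N ∈ 𝒩₂, |wN o g N| ≤ (∏ j, a (some j)) * (P * 2 ^ K') :=
            mul_le_mul_of_nonneg_left h1 h4
        _ = P * 2 ^ K' * (1 * ∏ j, a (some j)) := by ring
        _ ≤ P * 2 ^ K' * (a none * ∏ j, a (some j)) := by
            refine mul_le_mul_of_nonneg_left ?_ (by positivity)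
            exact mul_le_mul_of_nonneg_right ha1 h4
  obtain ⟨X, hX⟩ := stop_abs K A hmono w P hP hw0 hR 𝒩 (fun N hN => (hbel N hN).2.1)
  have hlhs : ∑ N ∈ 𝒩, w N.1 N.2 = ∑ N ∈ 𝒩, |wN o f N| :=
    sum_congr rfl fun N hN => by simp only [hw]; rw [if_pos hN]
  rw [hlhs] at hX
  refine hX.trans ?_
  -- the sum over the points
  have hcell : ∑ x ∈ X, ∏ j, A j 0 x ≤ (1 + 4 * (1 + 32 * Ch)) * 2 ^ K * ∏ j, α j := by
    have hα0 : 0 ≤ ∏ j, α j := prod_nonneg fun j _ => (hα j).le
    set Y : Finset ℤ := X.filter fun x => x / 2 ^ K = V with hY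
    have hYcard : (Y.card : ℝ) ≤ 2 ^ K := by
      have h1 : Y ⊆ Ico (2 ^ K * V) (2 ^ K * (V + 1)) := fun x hx => by
        rw [mem_cell]
        exact (mem_filter.1 hx).2
      have h2 := card_le_card h1
      rw [PL.H571.card_cell] at h2
      exact_mod_cast h2
    have h1 : ∀ x, ∏ j, A j 0 x = if x / 2 ^ K = V then ∏ j, A (some j) 0 x else 0 := by
      intro x
      rw [Fintype.prod_option]
      simp only [hA, Nat.sub_zero]
      split_ifs <;> simp
    have h2 : ∑ x ∈ X, ∏ j, A j 0 x = ∑ x ∈ Y, ∏ j, A (some j) 0 x := by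
      rw [hY, sum_filter]
      exact sum_congr rfl fun x _ => h1 x
    rw [h2]
    set u : Fin 4 → ℤ → ℝ := fun j x => A (some j) 0 x / α j with hu
    have hu1 : ∀ j x, 1 ≤ u j x := fun j x => (one_le_div (hα j)).2 (hAsome j 0 x)
    have h3 : ∀ x, ∏ j, A (some j) 0 x = (∏ j, α j) * ∏ j ∈ S, u j x := by
      intro x
      have h4 : ∀ j, A (some j) 0 x = α j * u j x := fun j => by
        simp only [hu]
        rw [mul_div_cancel₀ _ (hα j).ne']
      rw [prod_congr rfl fun j _ => h4 j, prod_mul_distrib]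
      congr 1
      symm
      refine prod_subset (subset_univ S) fun j _ hj => ?_
      simp only [hu, hA]
      rw [if_neg hj, div_self (hα j).ne']
    rw [sum_congr rfl fun x _ => h3 x, ← mul_sum]
    have h4 : ∑ x ∈ Y, ∏ j ∈ S, u j x ≤ (1 + 4 * (1 + 32 * Ch)) * 2 ^ K := by
      have h5 : ∀ j ∈ S, ∑ x ∈ Y, u j x ^ p ≤ (1 + 32 * Ch) * 2 ^ K := by
        intro j hj
        have h6 : ∀ x, u j x ^ p ≤ 1 + (α j ^ p)⁻¹ * RM q (f j) K 0 x ^ p := by
          intro x
          simp only [hu, hA]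
          rw [if_pos hj, Real.div_rpow (le_max_of_le_left (hα j).le) (hα j).le]
          have hαp : 0 < α j ^ p := Real.rpow_pos_of_pos (hα j) _
          rw [div_le_iff₀ hαp, add_mul, one_mul, mul_assoc, mul_comm (RM q (f j) K 0 x ^ p),
            inv_mul_cancel_left₀ hαp.ne']
          have hR0 : 0 ≤ RM q (f j) K 0 x ^ p := Real.rpow_nonneg (RM_nonneg _ _ _ _ _) _
          rcases le_total (α j) (RM q (f j) K 0 x) with h | h
          · rw [max_eq_right h]; linarith
          · rw [max_eq_left h]; linarith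
        have h7 := hl_unif hq hqp (f j) (hfs j) K Y
        have hαp : 0 < α j ^ p := Real.rpow_pos_of_pos (hα j) _
        calc ∑ x ∈ Y, u j x ^ p ≤ ∑ x ∈ Y, (1 + (α j ^ p)⁻¹ * RM q (f j) K 0 x ^ p) :=
              sum_le_sum fun x _ => h6 x
          _ = Y.card + (α j ^ p)⁻¹ * ∑ x ∈ Y, RM q (f j) K 0 x ^ p := by
              rw [sum_add_distrib, sum_const, nsmul_eq_mul, mul_one, ← mul_sum]
          _ ≤ 2 ^ K + (α j ^ p)⁻¹ * (Ch * (α j ^ p * 2 ^ (K + 5))) := by
              refine add_le_add hYcard (mul_le_mul_of_nonneg_left ?_ (by positivity))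
              exact h7.trans (mul_le_mul_of_nonneg_left (hglob j hj) hCh0.le)
          _ = (1 + 32 * Ch) * 2 ^ K := by
              field_simp
              ring
      calc ∑ x ∈ Y, ∏ j ∈ S, u j x ≤ ∑ x ∈ Y, (1 + ∑ j ∈ S, u j x ^ p) :=
            sum_le_sum fun x _ => prod_le_one_add S (fun j => u j x) (fun j _ => hu1 j x) hS
        _ = Y.card + ∑ j ∈ S, ∑ x ∈ Y, u j x ^ p := by
            rw [sum_add_distrib, sum_const, nsmul_eq_mul, mul_one, sum_comm]
        _ ≤ 2 ^ K + ∑ j ∈ S, (1 + 32 * Ch) * 2 ^ K := add_le_add hYcard (sum_le_sum h5)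
        _ ≤ 2 ^ K + 4 * ((1 + 32 * Ch) * 2 ^ K) := by
            rw [sum_const, nsmul_eq_mul]
            have h8 : (S.card : ℝ) ≤ 4 := by
              have := card_le_univ S
              rw [Fintype.card_fin] at this
              exact_mod_cast this
            have h9 : 0 ≤ (1 + 32 * Ch) * 2 ^ K := by positivity
            nlinarith
        _ = (1 + 4 * (1 + 32 * Ch)) * 2 ^ K := by ring
    calc (∏ j, α j) * ∑ x ∈ Y, ∏ j ∈ S, u j x ≤
          (∏ j, α j) * ((1 + 4 * (1 + 32 * Ch)) * 2 ^ K) := mul_le_mul_of_nonneg_left h4 hα0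
      _ = _ := by ring
  calc P * (2 * 2 ^ Fintype.card (Option (Fin 4))) * ∑ x ∈ X, ∏ j, A j 0 x ≤
        P * (2 * 2 ^ Fintype.card (Option (Fin 4))) *
          ((1 + 4 * (1 + 32 * Ch)) * 2 ^ K * ∏ j, α j) :=
        mul_le_mul_of_nonneg_left hcell (by positivity)
    _ = _ := by ring

end Vale.Agent.P141.H845
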